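import Mathlib

/-!
# P084G: the ultrapower of a Banach space

`XU X` is the quotient of the bounded sequences in `X` by the sequences that tend to zero along
the hyperfilter.  `uq x` is the class of the sequence `x` (and `0` if `x` is not bounded).
`fU f` is the map induced on unit spheres by a sequence of isometries `f n` of unit spheres.
-/

namespace P084G

open Metric Filter Topology BoundedContinuousFunction

/-- the ultrafilter used for all ultrapowers -/
noncomputable abbrev UU : Ultrafilter ℕ := Filter.hyperfilter ℕ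

theorem UU_le_atTop : (UU : Filter ℕ) ≤ atTop := Nat.hyperfilter_le_atTop

/-- sequences that are null along the ultrafilter -/
noncomputable def nullSub (X : Type*) [NormedAddCommGroup X] [NormedSpace ℝ X] :
    Submodule ℝ (ℕ →ᵇ X) where
  carrier := {x | Tendsto (fun n => ‖x n‖) (UU : Filter ℕ) (𝓝 0)}
  zero_mem' := by simp
  add_mem' := by
    intro a b ha hb
    have h := Filter.Tendsto.add (M := ℝ) ha hb
    simp only [add_zero] at h
    exact squeeze_zero (fun n => norm_nonneg _) (fun n => norm_add_le (a n) (b n)) h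
  smul_mem' := by
    intro c a ha
    have h := Filter.Tendsto.const_mul (M := ℝ) ‖c‖ ha
    simp only [mul_zero] at h
    refine h.congr fun n => ?_
    simp [norm_smul]

section

variable (X : Type*) [NormedAddCommGroup X] [NormedSpace ℝ X]

theorem mem_nullSub {X : Type*} [NormedAddCommGroup X] [NormedSpace ℝ X] (x : ℕ →ᵇ X) :
    x ∈ nullSub X ↔ Tendsto (fun n => ‖x n‖) (UU : Filter ℕ) (𝓝 0) := Iff.rfl

instance nullSub_closed : IsClosed (nullSub X : Set (ℕ →ᵇ X)) := by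
  rw [← isSeqClosed_iff_isClosed]
  intro x a hx ha
  change Tendsto (fun n => ‖a n‖) (UU : Filter ℕ) (𝓝 0)
  rw [Metric.tendsto_nhds]
  intro ε hε
  rw [Metric.tendsto_atTop] at ha
  obtain ⟨N, hN⟩ := ha (ε / 2) (by positivity)
  have h1 := hN N le_rfl
  have h2 : Tendsto (fun n => ‖x N n‖) (UU : Filter ℕ) (𝓝 0) := hx N
  rw [Metric.tendsto_nhds] at h2
  filter_upwards [h2 (ε / 2) (by positivity)] with n hn
  rw [Real.dist_eq, sub_zero, abs_of_nonneg (norm_nonneg _)] at hn ⊢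
  have h3 : ‖a n‖ ≤ ‖x N n‖ + ‖(x N - a) n‖ := by
    have : a n = x N n - (x N - a) n := by simp
    rw [this]
    exact norm_sub_le _ _
  have h4 : ‖(x N - a) n‖ ≤ ‖x N - a‖ := norm_coe_le_norm _ n
  rw [← dist_eq_norm] at h4
  linarith

/-- the ultrapower -/
abbrev XU : Type _ := (ℕ →ᵇ X) ⧸ nullSub X

end

section

variable {X : Type*} [NormedAddCommGroup X] [NormedSpace ℝ X]

/-- bounded sequences -/
def Bd (x : ℕ → X) : Prop := ∃ C : ℝ, ∀ n, ‖x n‖ ≤ C

theorem Bd.add {x y : ℕ → X} (hx : Bd x) (hy : Bd y) : Bd (fun n => x n + y n) := by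
  obtain ⟨C, hC⟩ := hx
  obtain ⟨D, hD⟩ := hy
  exact ⟨C + D, fun n => (norm_add_le _ _).trans (add_le_add (hC n) (hD n))⟩

theorem Bd.neg {x : ℕ → X} (hx : Bd x) : Bd (fun n => - x n) := by
  obtain ⟨C, hC⟩ := hx
  exact ⟨C, fun n => by rw [norm_neg]; exact hC n⟩

theorem Bd.sub {x y : ℕ → X} (hx : Bd x) (hy : Bd y) : Bd (fun n => x n - y n) := by
  obtain ⟨C, hC⟩ := hx
  obtain ⟨D, hD⟩ := hy
  exact ⟨C + D, fun n => (norm_sub_le _ _).trans (add_le_add (hC n) (hD n))⟩

theorem Bd.smul {x : ℕ → X} (c : ℝ) (hx : Bd x) : Bd (fun n => c • x n) := by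
  obtain ⟨C, hC⟩ := hx
  refine ⟨‖c‖ * C, fun n => ?_⟩
  rw [norm_smul]
  exact mul_le_mul_of_nonneg_left (hC n) (norm_nonneg _)

theorem Bd.const (x : X) : Bd (fun _ : ℕ => x) := ⟨‖x‖, fun _ => le_rfl⟩

theorem Bd.sph (x : ℕ → sphere (0 : X) 1) : Bd (fun n => (x n : X)) :=
  ⟨1, fun n => by simp⟩

/-- a bounded sequence as an element of the function space -/
noncomputable def Bd.toFun {x : ℕ → X} (h : Bd x) : ℕ →ᵇ X :=
  BoundedContinuousFunction.ofNormedAddCommGroupDiscrete x h.choose h.choose_spec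

@[simp] theorem Bd.toFun_apply {x : ℕ → X} (h : Bd x) (n : ℕ) : h.toFun n = x n := rfl

open Classical in
/-- the class of a sequence in the ultrapower -/
noncomputable def uq (x : ℕ → X) : XU X :=
  if h : Bd x then Submodule.Quotient.mk h.toFun else 0

theorem uq_of_bd {x : ℕ → X} (h : Bd x) : uq x = Submodule.Quotient.mk h.toFun := by
  unfold uq
  rw [dif_pos h]

theorem uq_coe (x : ℕ →ᵇ X) : uq (fun n => x n) = Submodule.Quotient.mk x := by
  have h : Bd (fun n => x n) := ⟨‖x‖, fun n => norm_coe_le_norm x n⟩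
  rw [uq_of_bd h]
  congr 1

theorem uq_add {x y : ℕ → X} (hx : Bd x) (hy : Bd y) :
    uq (fun n => x n + y n) = uq x + uq y := by
  rw [uq_of_bd hx, uq_of_bd hy, uq_of_bd (hx.add hy), ← Submodule.Quotient.mk_add]
  congr 1

theorem uq_sub {x y : ℕ → X} (hx : Bd x) (hy : Bd y) :
    uq (fun n => x n - y n) = uq x - uq y := by
  rw [uq_of_bd hx, uq_of_bd hy, uq_of_bd (hx.sub hy), ← Submodule.Quotient.mk_sub]
  congr 1

theorem uq_smul {x : ℕ → X} (c : ℝ) (hx : Bd x) :
    uq (fun n => c • x n) = c • uq x := by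
  rw [uq_of_bd hx, uq_of_bd (hx.smul c), ← Submodule.Quotient.mk_smul]
  congr 1

theorem exists_rep (ξ : XU X) : ∃ x : ℕ → X, Bd x ∧ uq x = ξ := by
  obtain ⟨x, hx⟩ := Submodule.Quotient.mk_surjective _ ξ
  exact ⟨fun n => x n, ⟨‖x‖, fun n => norm_coe_le_norm x n⟩, by rw [uq_coe, hx]⟩

/-- a bounded real sequence converges along the ultrafilter -/
theorem exists_lim {a : ℕ → ℝ} {C : ℝ} (ha : ∀ n, a n ∈ Set.Icc 0 C) :
    ∃ L, Tendsto a (UU : Filter ℕ) (𝓝 L) := by
  have hc : IsCompact (Set.Icc (0 : ℝ) C) := isCompact_Icc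
  have h := hc.ultrafilter_le_nhds (Ultrafilter.map a UU) (by
    rw [le_principal_iff]
    change a ⁻¹' Set.Icc 0 C ∈ (UU : Filter ℕ)
    exact Filter.univ_mem' ha)
  obtain ⟨L, -, hL⟩ := h
  exact ⟨L, hL⟩

/-- the norm of a class is the limit of the norms along the ultrafilter -/
theorem norm_uq {x : ℕ → X} (h : Bd x) :
    Tendsto (fun n => ‖x n‖) (UU : Filter ℕ) (𝓝 ‖uq x‖) := by
  obtain ⟨C, hC⟩ := id h
  obtain ⟨L, hL⟩ := exists_lim (a := fun n => ‖x n‖) (C := C) (fun n => ⟨norm_nonneg _, hC n⟩)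
  have hL0 : 0 ≤ L := ge_of_tendsto hL (Eventually.of_forall fun n => norm_nonneg _)
  have key : ‖uq x‖ = L := by
    rw [uq_of_bd h]
    refine le_antisymm ?_ ?_
    · refine le_of_forall_pos_le_add fun ε hε => ?_
      classical
      let y : ℕ → X := fun n => if ‖x n‖ < L + ε then x n else 0
      have hy : ∀ n, ‖y n‖ ≤ L + ε := by
        intro n
        by_cases hn : ‖x n‖ < L + ε
        · simp only [y, if_pos hn]; exact hn.le
        · simp only [y, if_neg hn, norm_zero]; linarith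
      have hyb : Bd y := ⟨_, hy⟩
      have e : (Submodule.Quotient.mk h.toFun : XU X) = Submodule.Quotient.mk hyb.toFun := by
        rw [Submodule.Quotient.eq, mem_nullSub]
        refine Tendsto.congr' ?_ tendsto_const_nhds
        filter_upwards [hL.eventually_lt_const (show L < L + ε by linarith)] with n hn
        have : y n = x n := by simp only [y, if_pos hn]
        simp [this]
      rw [e]
      refine (Submodule.Quotient.norm_mk_le _ _).trans ?_
      exact (norm_le (by linarith)).2 hy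
    · refine le_of_forall_pos_le_add fun ε hε => ?_
      obtain ⟨m, hm1, hm2⟩ := Submodule.Quotient.norm_mk_lt
        (Submodule.Quotient.mk h.toFun : XU X) hε
      rw [Submodule.Quotient.eq, mem_nullSub] at hm1
      have h1 : ∀ n, ‖x n‖ ≤ ‖m‖ + ‖(m - h.toFun) n‖ := by
        intro n
        have : x n = m n - (m - h.toFun) n := by simp
        calc ‖x n‖ = ‖m n - (m - h.toFun) n‖ := by rw [← this]
          _ ≤ ‖m n‖ + ‖(m - h.toFun) n‖ := norm_sub_le _ _
          _ ≤ _ := by gcongr; exact norm_coe_le_norm m n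
      have h2 : Tendsto (fun n => ‖m‖ + ‖(m - h.toFun) n‖) (UU : Filter ℕ) (𝓝 (‖m‖ + 0)) :=
        tendsto_const_nhds.add hm1
      have h3 := le_of_tendsto_of_tendsto' hL h2 h1
      linarith
  rwa [key]

theorem uq_eq_zero_iff {x : ℕ → X} (h : Bd x) :
    uq x = 0 ↔ Tendsto (fun n => ‖x n‖) (UU : Filter ℕ) (𝓝 0) := by
  rw [uq_of_bd h, Submodule.Quotient.mk_eq_zero, mem_nullSub]
  rfl

theorem uq_eq_iff {x y : ℕ → X} (hx : Bd x) (hy : Bd y) :
    uq x = uq y ↔ Tendsto (fun n => ‖x n - y n‖) (UU : Filter ℕ) (𝓝 0) := by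
  rw [← sub_eq_zero, ← uq_sub hx hy, uq_eq_zero_iff (hx.sub hy)]

theorem uq_congr {x y : ℕ → X} (hx : Bd x) (hy : Bd y)
    (h : ∀ᶠ n in (UU : Filter ℕ), x n = y n) : uq x = uq y := by
  rw [uq_eq_iff hx hy]
  refine Tendsto.congr' ?_ tendsto_const_nhds
  filter_upwards [h] with n hn
  simp [hn]

theorem norm_uq_const (x : X) : ‖uq (fun _ : ℕ => x)‖ = ‖x‖ :=
  tendsto_nhds_unique (norm_uq (Bd.const x)) tendsto_const_nhds

/-- unit elements have representatives of unit vectors -/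
theorem exists_unit_rep (ξ : XU X) (hξ : ‖ξ‖ = 1) :
    ∃ x : ℕ → sphere (0 : X) 1, uq (fun n => (x n : X)) = ξ := by
  obtain ⟨x, hx, rfl⟩ := exists_rep ξ
  have hlim := norm_uq hx
  rw [hξ] at hlim
  have hev : ∀ᶠ n in (UU : Filter ℕ), ‖x n‖ ≠ 0 := by
    filter_upwards [hlim.eventually_const_lt (show (1 / 2 : ℝ) < 1 by norm_num)] with n hn
    intro h
    rw [h] at hn
    norm_num at hn
  obtain ⟨n0, hn0⟩ := hev.exists
  have hne : ∀ n, ‖x n‖ ≠ 0 → ‖(‖x n‖)⁻¹ • x n‖ = 1 := by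
    intro n hn
    rw [norm_smul, norm_inv, norm_norm, inv_mul_cancel₀ hn]
  let e : sphere (0 : X) 1 := ⟨(‖x n0‖)⁻¹ • x n0, by simpa using hne n0 hn0⟩
  classical
  let y : ℕ → sphere (0 : X) 1 := fun n =>
    if h : ‖x n‖ ≠ 0 then ⟨(‖x n‖)⁻¹ • x n, by simpa using hne n h⟩ else e
  refine ⟨y, ?_⟩
  rw [uq_eq_iff (Bd.sph y) hx]
  have h1 : Tendsto (fun n => |‖x n‖ - 1|) (UU : Filter ℕ) (𝓝 |1 - 1|) :=
    (hlim.sub_const 1).abs
  rw [sub_self, abs_zero] at h1
  refine Tendsto.congr' ?_ h1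
  filter_upwards [hev] with n hn
  have : (y n : X) = (‖x n‖)⁻¹ • x n := by simp only [y]; rw [dif_pos hn]
  rw [this]
  have e1 : (‖x n‖)⁻¹ • x n - x n = ((‖x n‖)⁻¹ * (1 - ‖x n‖)) • x n := by
    rw [mul_sub, mul_one, inv_mul_cancel₀ hn, sub_smul, one_smul]
  rw [e1, norm_smul, norm_mul, norm_inv, norm_norm, Real.norm_eq_abs, abs_sub_comm]
  field_simp

end

section Map

variable {X : Type*} [NormedAddCommGroup X] [NormedSpace ℝ X]
variable {Y : Type*} [NormedAddCommGroup Y] [NormedSpace ℝ Y]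

/-- a representative of unit vectors of a unit element -/
noncomputable def urep (ξ : sphere (0 : XU X) 1) : ℕ → sphere (0 : X) 1 :=
  (exists_unit_rep (ξ : XU X) (by simp)).choose

theorem uq_urep (ξ : sphere (0 : XU X) 1) : uq (fun n => (urep ξ n : X)) = ξ :=
  (exists_unit_rep (ξ : XU X) (by simp)).choose_spec

theorem norm_uq_sph (y : ℕ → sphere (0 : Y) 1) : ‖uq (fun n => (y n : Y))‖ = 1 := by
  refine tendsto_nhds_unique (norm_uq (Bd.sph y)) (tendsto_const_nhds.congr fun n => ?_)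
  simp

/-- class of a sequence of unit vectors as an element of the unit sphere -/
noncomputable def uqs (y : ℕ → sphere (0 : Y) 1) : sphere (0 : XU Y) 1 :=
  ⟨uq (fun n => (y n : Y)), by simpa using norm_uq_sph y⟩

@[simp] theorem coe_uqs (y : ℕ → sphere (0 : Y) 1) :
    (uqs y : XU Y) = uq (fun n => (y n : Y)) := rfl

theorem uqs_urep (ξ : sphere (0 : XU X) 1) : uqs (urep ξ) = ξ :=
  Subtype.ext (uq_urep ξ)

theorem norm_sub_uqs (x y : ℕ → sphere (0 : X) 1) :
    Tendsto (fun n => ‖(x n : X) - y n‖) (UU : Filter ℕ) (𝓝 ‖(uqs x : XU X) - uqs y‖) := by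
  rw [coe_uqs, coe_uqs, ← uq_sub (Bd.sph x) (Bd.sph y)]
  exact norm_uq ((Bd.sph x).sub (Bd.sph y))

/-- the map induced on the unit spheres of the ultrapowers -/
noncomputable def fU (f : ℕ → sphere (0 : X) 1 → sphere (0 : Y) 1)
    (ξ : sphere (0 : XU X) 1) : sphere (0 : XU Y) 1 :=
  uqs (fun n => f n (urep ξ n))

theorem dist_sph {f : sphere (0 : X) 1 → sphere (0 : Y) 1} (hf : Isometry f)
    (x y : sphere (0 : X) 1) : ‖(f x : Y) - f y‖ = ‖(x : X) - y‖ := by
  have := hf.dist_eq x y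
  rwa [Subtype.dist_eq, Subtype.dist_eq, dist_eq_norm, dist_eq_norm] at this

theorem fU_dist {f : ℕ → sphere (0 : X) 1 → sphere (0 : Y) 1} (hf : ∀ n, Isometry (f n))
    (x y : ℕ → sphere (0 : X) 1) :
    ‖(uqs (fun n => f n (x n)) : XU Y) - uqs (fun n => f n (y n))‖
      = ‖(uqs x : XU X) - uqs y‖ := by
  refine tendsto_nhds_unique (norm_sub_uqs _ _) ?_
  refine (norm_sub_uqs x y).congr fun n => ?_
  rw [dist_sph (hf n)]

theorem fU_uqs {f : ℕ → sphere (0 : X) 1 → sphere (0 : Y) 1} (hf : ∀ n, Isometry (f n))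
    (x : ℕ → sphere (0 : X) 1) : fU f (uqs x) = uqs (fun n => f n (x n)) := by
  have h := fU_dist hf (urep (uqs x)) x
  rw [uqs_urep, sub_self, norm_zero, norm_eq_zero, sub_eq_zero] at h
  exact Subtype.ext h

theorem fU_isometry {f : ℕ → sphere (0 : X) 1 → sphere (0 : Y) 1} (hf : ∀ n, Isometry (f n)) :
    Isometry (fU f) := by
  refine Isometry.of_dist_eq fun ξ η => ?_
  rw [Subtype.dist_eq, Subtype.dist_eq, dist_eq_norm, dist_eq_norm]
  rw [← uqs_urep ξ, ← uqs_urep η, fU_uqs hf, fU_uqs hf]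
  exact fU_dist hf _ _

theorem fU_surjective {f : ℕ → sphere (0 : X) 1 → sphere (0 : Y) 1} (hf : ∀ n, Isometry (f n))
    (hs : ∀ n, Function.Surjective (f n)) : Function.Surjective (fU f) := by
  intro η
  refine ⟨uqs (fun n => (hs n (urep η n)).choose), ?_⟩
  rw [fU_uqs hf]
  have : (fun n => f n ((hs n (urep η n)).choose)) = urep η :=
    funext fun n => (hs n (urep η n)).choose_spec
  rw [this, uqs_urep]

end Map

end P084G
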