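import Vale.Agent.Lib.P084G.UT
import Vale.Agent.Lib.P084G.A.NSP

/-!
# P084G: the theorem for spaces which are not uniformly smooth

`main_ns` : if `X` is a Banach space which is not uniformly smooth then every isometry of its unit sphere onto the unit
sphere of a Banach space `Y` is the restriction of a linear isometry of `X` onto `Y`.
-/

open Filter Topology P084G Metric

namespace Vale.Agent.P084G

universe u

/-- uniform smoothness -/
def UnifSmooth (X : Type*) [NormedAddCommGroup X] [NormedSpace ℝ X] : Prop :=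
  ∀ ε : ℝ, 0 < ε → ∃ δ : ℝ, 0 < δ ∧ ∀ p v : X, ‖p‖ = 1 → ‖v‖ = 1 → ∀ t : ℝ, 0 < t → t ≤ δ →
    ‖p + t • v‖ + ‖p - t • v‖ ≤ 2 + ε * t

section

variable {X : Type*} [NormedAddCommGroup X] [NormedSpace ℝ X]

/-- the canonical embedding into the ultrapower -/
noncomputable def iota (X : Type*) [NormedAddCommGroup X] [NormedSpace ℝ X] : X →ₗᵢ[ℝ] XU X where
  toFun := fun x => uq (fun _ => x)
  map_add' := fun x y => uq_add (Bd.const x) (Bd.const y)
  map_smul' := fun c x => uq_smul c (Bd.const x)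
  norm_map' := fun x => norm_uq_const x

theorem iota_apply (x : X) : iota X x = uq (fun _ => x) := rfl

variable {Y : Type*} [NormedAddCommGroup Y] [NormedSpace ℝ Y]

/-- if a sphere isometry is the restriction of a linear isometry after embeddings, it is linear -/
theorem linear_of_embed {X' Y' : Type*} [NormedAddCommGroup X'] [NormedSpace ℝ X']
    [NormedAddCommGroup Y'] [NormedSpace ℝ Y'] {f : X → Y} {g : Y → X} (h : SIso f g)
    (i : X →ₗᵢ[ℝ] X') (j : Y →ₗᵢ[ℝ] Y') (L : X' →ₗᵢ[ℝ] Y')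
    (hL : ∀ x : X, ‖x‖ = 1 → L (i x) = j (f x)) :
    ∃ T : X ≃ₗᵢ[ℝ] Y, ∀ x : X, ‖x‖ = 1 → T x = f x := by
  let T : X → Y := fun x => ‖x‖ • f (‖x‖⁻¹ • x)
  have hT : ∀ x, L (i x) = j (T x) := by
    intro x
    rcases eq_or_ne x 0 with rfl | hx
    · simp [T]
    · have hx0 : ‖x‖ ≠ 0 := norm_ne_zero_iff.2 hx
      have h1 : ‖‖x‖⁻¹ • x‖ = 1 := by
        rw [norm_smul, norm_inv, norm_norm, inv_mul_cancel₀ hx0]
      have h2 := hL _ h1
      have h3 : x = ‖x‖ • (‖x‖⁻¹ • x) := by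
        rw [smul_smul, mul_inv_cancel₀ hx0, one_smul]
      calc L (i x) = L (i (‖x‖ • (‖x‖⁻¹ • x))) := by rw [← h3]
        _ = ‖x‖ • L (i (‖x‖⁻¹ • x)) := by rw [map_smul, map_smul]
        _ = ‖x‖ • j (f (‖x‖⁻¹ • x)) := by rw [h2]
        _ = j (T x) := by rw [← map_smul]
  let Tl : X →ₗᵢ[ℝ] Y :=
    { toFun := T
      map_add' := by
        intro x y
        apply j.injective
        rw [map_add, ← hT, ← hT, ← hT, map_add, map_add]
      map_smul' := by
        intro c x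
        apply j.injective
        rw [RingHom.id_apply, j.map_smul c (T x), ← hT, ← hT, i.map_smul, L.map_smul]
      norm_map' := by
        intro x
        change ‖T x‖ = ‖x‖
        rw [← j.norm_map, ← hT, L.norm_map, i.norm_map] }
  have hTl : ∀ x, Tl x = T x := fun _ => rfl
  have hunit : ∀ x : X, ‖x‖ = 1 → T x = f x := by
    intro x hx
    simp only [T, hx, inv_one, one_smul]
  have hsurj : Function.Surjective Tl := by
    intro y
    rcases eq_or_ne y 0 with rfl | hy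
    · exact ⟨0, map_zero _⟩
    · have hy0 : ‖y‖ ≠ 0 := norm_ne_zero_iff.2 hy
      have h1 : ‖‖y‖⁻¹ • y‖ = 1 := by
        rw [norm_smul, norm_inv, norm_norm, inv_mul_cancel₀ hy0]
      refine ⟨‖y‖ • g (‖y‖⁻¹ • y), ?_⟩
      rw [map_smul, hTl, hunit _ (h.mapg _ h1), h.fg _ h1, smul_smul, mul_inv_cancel₀ hy0,
        one_smul]
  exact ⟨LinearIsometryEquiv.ofSurjective Tl hsurj, fun x hx => hunit x hx⟩

end

section

variable {X : Type u} [NormedAddCommGroup X] [NormedSpace ℝ X] [CompleteSpace X]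
variable {Y : Type*} [NormedAddCommGroup Y] [NormedSpace ℝ Y] [CompleteSpace Y]

/-- a rigid derivative at one point determines the map -/
theorem rigid_of_deriv {f : X → Y} {g : Y → X} (h : SIso f g) {p : X} (hp : ‖p‖ = 1)
    (G : X ≃ₗᵢ[ℝ] Y) (hG : ∀ v, nd p v = 0 → HasD f p v (G v)) (hGp : G p = f p) :
    ∀ x : X, ‖x‖ = 1 → G x = f x := by
  have K : Kl (fun x => G.symm (f x)) (fun x => g (G x)) p :=
    { iso := h.comp_linear G
      hp := hp
      fix := by
        rw [← hGp, LinearIsometryEquiv.symm_apply_apply]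
      der := by
        intro v hv
        have := (hG v hv).comp_linear G
        rwa [LinearIsometryEquiv.symm_apply_apply] at this }
  intro x hx
  have h1 := UT X K x hx
  change G.symm (f x) = x at h1
  calc G x = G (G.symm (f x)) := by rw [h1]
    _ = f x := LinearIsometryEquiv.apply_symm_apply _ _

/-- a space which is not uniformly smooth has a kink in its ultrapower -/
theorem exists_kink (hX : ¬ UnifSmooth X) :
    ∃ p v : XU X, ‖p‖ = 1 ∧ ∃ δ : ℝ, 0 < δ ∧ ∀ s : ℝ, 0 < s →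
      2 + δ * s ≤ ‖p + s • v‖ + ‖p - s • v‖ := by
  unfold UnifSmooth at hX
  push Not at hX
  obtain ⟨ε, hε, H⟩ := hX
  have H' : ∀ n : ℕ, ∃ p v : X, ‖p‖ = 1 ∧ ‖v‖ = 1 ∧ ∃ t : ℝ, 0 < t ∧ t ≤ 1 / ((n : ℝ) + 1) ∧
      2 + ε * t < ‖p + t • v‖ + ‖p - t • v‖ := by
    intro n
    obtain ⟨p, v, hp, hv, t, ht0, ht1, ht2⟩ := H (1 / ((n : ℝ) + 1)) (by positivity)
    exact ⟨p, v, hp, hv, t, ht0, ht1, ht2⟩
  choose p v hp hv t ht0 ht1 ht2 using H'
  refine ⟨uq p, uq v, norm_uq_unit hp, ε, hε, fun s hs => ?_⟩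
  have hbp := Bd.unit hp
  have hbv := Bd.unit hv
  have l1 := norm_uq (hbp.add (hbv.smul s))
  have l2 := norm_uq (hbp.sub (hbv.smul s))
  rw [uq_add hbp (hbv.smul s), uq_smul s hbv] at l1
  rw [uq_sub hbp (hbv.smul s), uq_smul s hbv] at l2
  refine ge_of_tendsto (l1.add l2) ?_
  have hto : Tendsto (fun n : ℕ => 1 / ((n : ℝ) + 1)) (UU : Filter ℕ) (𝓝 0) :=
    tendsto_one_div_add_atTop_nhds_zero_nat.mono_left UU_le_atTop
  filter_upwards [hto.eventually_lt_const hs] with n hn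
  have hts : t n ≤ s := (ht1 n).trans hn.le
  have s1 := slope_le (p n) (v n) (ht0 n) hts
  have s2 := slope_le (p n) (-v n) (ht0 n) hts
  simp only [smul_neg, ← sub_eq_add_neg] at s2
  rw [hp] at s1 s2
  have h3 := ht2 n
  have h4 : (ε * t n) * s ≤ (‖p n + s • v n‖ + ‖p n - s • v n‖ - 2) * t n := by nlinarith
  have h5 : t n * (ε * s) ≤ t n * (‖p n + s • v n‖ + ‖p n - s • v n‖ - 2) := by linarith
  have h6 := le_of_mul_le_mul_left h5 (ht0 n)
  linarith

/-- **Theorem.**  A Banach space that is not uniformly smooth has the Mazur-Ulam property. -/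
theorem main_ns (hX : ¬ UnifSmooth X) {f : X → Y} {g : Y → X} (h : SIso f g) :
    ∃ T : X ≃ₗᵢ[ℝ] Y, ∀ x : X, ‖x‖ = 1 → T x = f x := by
  obtain ⟨p, v, hp, hkink⟩ := exists_kink hX
  have hns : ¬ Smo p := not_smo_of_kink hp hkink
  have hconst : ∀ _ : ℕ, SIso f g := fun _ => h
  have isoU : SIso (gU (fun _ : ℕ => f)) (gU (fun _ : ℕ => g)) := siso_gU hconst
  obtain ⟨G, hG, hGp⟩ := ns_main isoU hp hns
  have hrig := rigid_of_deriv isoU hp G hG hGp
  refine linear_of_embed h (iota X) (iota Y) G.toLinearIsometry fun x hx => ?_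
  have h1 : ‖iota X x‖ = 1 := by rw [(iota X).norm_map, hx]
  have h2 := hrig _ h1
  have h3 : gU (fun _ : ℕ => f) (iota X x) = iota Y (f x) := by
    rw [iota_apply, gU_uq hconst (fun _ => hx), iota_apply]
  rw [h3] at h2
  exact h2

/-- the same theorem for maps between the sphere subtypes -/
theorem main_ns_sphere (hX : ¬ UnifSmooth X) (f : sphere (0 : X) 1 → sphere (0 : Y) 1)
    (hf : Isometry f) (hs : Function.Surjective f) :
    ∃ T : X ≃ₗᵢ[ℝ] Y, ∀ x : sphere (0 : X) 1, T (x : X) = (f x : Y) := by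
  obtain ⟨F, G, hFG, hF⟩ := exists_siso f hf hs
  obtain ⟨T, hT⟩ := main_ns hX hFG
  exact ⟨T, fun x => by rw [hT x (by simp), hF]⟩

end

end Vale.Agent.P084G
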