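import Mathlib

/-!
# P084G: the translation lemma (W)

Let `g` be an isometry of the unit sphere onto itself and let `p` be a unit vector with
`‖p + g p‖ = 2`.  Assume that `g (p + s u) = g p + s u + o(s)` for every `u` such that the
segment `[p, p + u]` lies in the sphere.  Then `g p = p`.

Proof.  Put `x n = g^[n] p` and `d = ‖x 1 - x 0‖`.  By induction `x 0, ..., x n` have a common
norming functional and `‖x n - x 0‖ = n d`; as the diameter of the sphere is `2`, `d = 0`.
-/

namespace P084G

open Metric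

/-- every vector has a norming functional -/
theorem exists_norming {X : Type*} [NormedAddCommGroup X] [NormedSpace ℝ X] (x : X) :
    ∃ ψ : X →L[ℝ] ℝ, (∀ v, ψ v ≤ ‖v‖) ∧ ψ x = ‖x‖ := by
  obtain ⟨ψ, h1, h2⟩ := exists_dual_vector'' ℝ x
  refine ⟨ψ, fun v => ?_, by simpa using h2⟩
  calc ψ v ≤ ‖ψ v‖ := le_abs_self _
    _ ≤ ‖ψ‖ * ‖v‖ := ψ.le_opNorm v
    _ ≤ 1 * ‖v‖ := by gcongr
    _ = ‖v‖ := one_mul _

section W

variable {X : Type*} [NormedAddCommGroup X] [NormedSpace ℝ X]

/-- Key inequality: convexity along the image of a segment. -/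
theorem w_key (g : sphere (0 : X) 1 → sphere (0 : X) 1) (hg : Isometry g)
    (hs : Function.Surjective g) (p q : sphere (0 : X) 1) (u : X)
    (hq : (q : X) = p + u)
    (hseg : ∀ s : ℝ, 0 ≤ s → s ≤ 1 → ‖(p : X) + s • u‖ = 1)
    (hd : ∀ ε : ℝ, 0 < ε → ∃ s0 : ℝ, 0 < s0 ∧ ∀ s : ℝ, 0 < s → s < s0 →
      ∀ x : sphere (0 : X) 1, (x : X) = p + s • u → ‖(g x : X) - g p - s • u‖ ≤ ε * s)
    (a : sphere (0 : X) 1) (χ : X →L[ℝ] ℝ) (hχ : ∀ v, χ v ≤ ‖v‖)
    (hn : χ ((g p : X) - a) = ‖(g p : X) - a‖) :
    ‖(g p : X) - a‖ + χ u ≤ ‖(g q : X) - a‖ := by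
  obtain ⟨b, rfl⟩ := hs a
  refine le_of_forall_pos_le_add fun ε hε => ?_
  obtain ⟨s0, hs0, H⟩ := hd ε hε
  set s := min (s0 / 2) 1 with hsdef
  have hspos : 0 < s := by positivity
  have hs1 : s ≤ 1 := min_le_right _ _
  have hslt : s < s0 := lt_of_le_of_lt (min_le_left _ _) (by linarith)
  have hx : ‖(p : X) + s • u‖ = 1 := hseg s hspos.le hs1
  let x : sphere (0 : X) 1 := ⟨p + s • u, by simp [hx]⟩
  have hxx : (x : X) = p + s • u := rfl
  have h1 := H s hspos hslt x hxx
  have e1 : ‖(g x : X) - g b‖ = ‖(p : X) + s • u - b‖ := by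
    have := hg.dist_eq x b
    rw [Subtype.dist_eq, Subtype.dist_eq, dist_eq_norm, dist_eq_norm] at this
    rw [this, hxx]
  have e2 : ‖(g p : X) - g b‖ = ‖(p : X) - b‖ := by
    have := hg.dist_eq p b
    rwa [Subtype.dist_eq, Subtype.dist_eq, dist_eq_norm, dist_eq_norm] at this
  have e3 : ‖(g q : X) - g b‖ = ‖(p : X) + u - b‖ := by
    have := hg.dist_eq q b
    rw [Subtype.dist_eq, Subtype.dist_eq, dist_eq_norm, dist_eq_norm] at this
    rw [this, hq]
  have conv : ‖(p : X) + s • u - b‖ ≤ (1 - s) * ‖(p : X) - b‖ + s * ‖(p : X) + u - b‖ := by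
    have : (p : X) + s • u - b = (1 - s) • ((p : X) - b) + s • ((p : X) + u - b) := by module
    rw [this]
    refine (norm_add_le _ _).trans ?_
    rw [norm_smul, norm_smul, Real.norm_of_nonneg (by linarith : (0 : ℝ) ≤ 1 - s),
      Real.norm_of_nonneg hspos.le]
  have low : ‖(g p : X) - g b‖ + s * χ u - ε * s ≤ ‖(g x : X) - g b‖ := by
    have h2 : χ ((g x : X) - g b) = χ ((g p : X) - g b) + s * χ u
        - χ (-((g x : X) - g p - s • u)) := by
      simp only [map_sub, map_neg, map_smul, smul_eq_mul]; ring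
    have h3 : χ (-((g x : X) - g p - s • u)) ≤ ε * s := by
      refine (hχ _).trans ?_
      rwa [norm_neg]
    have h4 := hχ ((g x : X) - g b)
    rw [h2, hn] at h4
    linarith
  rw [e1, e2] at low
  rw [e2, e3]
  have : s * (‖(p : X) - b‖ + χ u) ≤ s * (‖(p : X) + u - b‖ + ε) := by nlinarith
  exact le_of_mul_le_mul_left this hspos

/-- The translation lemma. -/
theorem W (g : sphere (0 : X) 1 → sphere (0 : X) 1) (hg : Isometry g)
    (hs : Function.Surjective g) (p : sphere (0 : X) 1)
    (h2 : ‖(p : X) + g p‖ = 2)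
    (hd : ∀ u : X, (∀ s : ℝ, 0 ≤ s → s ≤ 1 → ‖(p : X) + s • u‖ = 1) →
      ∀ ε : ℝ, 0 < ε → ∃ s0 : ℝ, 0 < s0 ∧ ∀ s : ℝ, 0 < s → s < s0 →
      ∀ x : sphere (0 : X) 1, (x : X) = p + s • u → ‖(g x : X) - g p - s • u‖ ≤ ε * s) :
    g p = p := by
  -- the orbit
  set x : ℕ → sphere (0 : X) 1 := fun n => g^[n] p with hx
  have x0 : x 0 = p := rfl
  have xs : ∀ n, x (n + 1) = g (x n) := fun n => Function.iterate_succ_apply' g n p
  have nx : ∀ n, ‖(x n : X)‖ = 1 := fun n => by simp
  set d := ‖(x 1 : X) - x 0‖ with hdd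
  have step : ∀ n, ‖(x (n + 1) : X) - x n‖ = d := by
    intro n
    induction n with
    | zero => rfl
    | succ n ih =>
      have := hg.dist_eq (x (n + 1)) (x n)
      rw [Subtype.dist_eq, Subtype.dist_eq, dist_eq_norm, dist_eq_norm] at this
      rw [xs (n + 1)]
      conv_lhs => rw [xs n]
      rw [← xs n, ← ih]
      rw [xs n] at this ⊢
      exact this
  have claim : ∀ n : ℕ, (∃ ψ : X →L[ℝ] ℝ, (∀ v, ψ v ≤ ‖v‖) ∧ ∀ i, i ≤ n + 1 → ψ (x i) = 1) ∧
      ‖(x (n + 1) : X) - x 0‖ = (n + 1) * d := by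
    intro n
    induction n with
    | zero =>
      refine ⟨?_, by simp [hdd]⟩
      obtain ⟨ψ, h3, h4⟩ := exists_norming ((x 0 : X) + x 1)
      refine ⟨ψ, h3, ?_⟩
      have h5 : ‖(x 0 : X) + x 1‖ = 2 := by rw [x0, xs 0, x0]; exact h2
      rw [h5, map_add] at h4
      have h6 := h3 (x 0)
      have h7 := h3 (x 1)
      rw [nx] at h6 h7
      intro i hi
      interval_cases i
      · linarith
      · linarith
    | succ n ih =>
      obtain ⟨⟨ψ, hψ, hψ1⟩, hlen⟩ := ih
      set u : X := (x (n + 1) : X) - x 0 with hu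
      have hseg : ∀ s : ℝ, 0 ≤ s → s ≤ 1 → ‖(p : X) + s • u‖ = 1 := by
        intro s hs0 hs1
        refine le_antisymm ?_ ?_
        · have : (p : X) + s • u = (1 - s) • (x 0 : X) + s • (x (n + 1) : X) := by
            rw [hu, x0]; module
          rw [this]
          refine (norm_add_le _ _).trans ?_
          rw [norm_smul, norm_smul, nx, nx, Real.norm_of_nonneg (by linarith : (0 : ℝ) ≤ 1 - s),
            Real.norm_of_nonneg hs0]
          linarith
        · refine le_trans ?_ (hψ _)
          rw [map_add, map_smul, hu, map_sub, hψ1 (n + 1) le_rfl, hψ1 0 (Nat.zero_le _), ← x0,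
            hψ1 0 (Nat.zero_le _)]
          simp
      have hq : (x (n + 1) : X) = p + u := by rw [hu, x0]; abel
      have key := w_key g hg hs p (x (n + 1)) u hq hseg (hd u hseg)
      rw [← xs (n + 1)] at key
      have gp : g p = x 1 := by rw [xs 0, x0]
      rw [gp] at key
      -- the length
      have L : ‖(x (n + 1 + 1) : X) - x 0‖ = ((n : ℝ) + 1 + 1) * d := by
        refine le_antisymm ?_ ?_
        · have : (x (n + 1 + 1) : X) - x 0 = ((x (n + 1 + 1) : X) - x (n + 1)) + u := by
            rw [hu]; abel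
          rw [this]
          refine (norm_add_le _ _).trans ?_
          rw [step, hlen]
          linarith
        · obtain ⟨χ, hχ, hχu⟩ := exists_norming u
          -- telescoping
          have tele : ∀ m : ℕ, χ ((x (m + 1) : X) - x 1) ≤ m * d := by
            intro m
            induction m with
            | zero => simp
            | succ m ih =>
              have : (x (m + 1 + 1) : X) - x 1
                  = ((x (m + 1 + 1) : X) - x (m + 1)) + ((x (m + 1) : X) - x 1) := by abel
              rw [this, map_add]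
              have h5 := hχ ((x (m + 1 + 1) : X) - x (m + 1))
              rw [step] at h5
              push_cast
              linarith
          have h6 : χ ((x 1 : X) - x 0) = d := by
            refine le_antisymm (hχ _) ?_
            have h7 := tele n
            have h8 : χ u = χ ((x (n + 1) : X) - x 1) + χ ((x 1 : X) - x 0) := by
              rw [← map_add, hu]; congr 1; abel
            rw [hχu, hlen] at h8
            linarith
          have h9 := key (x 0) χ hχ (by rw [h6])
          rw [hχu, hlen, ← hdd] at h9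
          linarith
      refine ⟨?_, by rw [L]; push_cast; ring⟩
      -- the common functional
      set m : X := ((n : ℝ) + 2)⁻¹ • ∑ i ∈ Finset.range (n + 2), (x i : X) with hm
      have hn2 : (0 : ℝ) < (n : ℝ) + 2 := by positivity
      have hψm : ψ m = 1 := by
        rw [hm, map_smul, map_sum, Finset.sum_congr rfl (fun i hi => hψ1 i (by
          have := Finset.mem_range.1 hi; omega))]
        simp
        field_simp
      have hmn : ‖m‖ = 1 := by
        refine le_antisymm ?_ ?_
        · rw [hm, norm_smul, Real.norm_of_nonneg (by positivity)]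
          have : ‖∑ i ∈ Finset.range (n + 2), (x i : X)‖ ≤ (n : ℝ) + 2 := by
            refine (norm_sum_le _ _).trans ?_
            rw [Finset.sum_congr rfl (fun i _ => nx i)]
            simp
          calc ((n : ℝ) + 2)⁻¹ * ‖∑ i ∈ Finset.range (n + 2), (x i : X)‖
              ≤ ((n : ℝ) + 2)⁻¹ * ((n : ℝ) + 2) := by gcongr
            _ = 1 := by field_simp
        · rw [← hψm]; exact hψ m
      let a : sphere (0 : X) 1 := ⟨-m, by simp [hmn]⟩
      have ha : (a : X) = -m := rfl
      have h1m : ψ ((x 1 : X) - a) = 2 := by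
        rw [ha, sub_neg_eq_add, map_add, hψm, hψ1 1 (by omega)]; norm_num
      have h1n : ‖(x 1 : X) - a‖ = 2 := by
        refine le_antisymm ?_ ?_
        · refine (norm_sub_le _ _).trans ?_
          rw [nx, ha, norm_neg, hmn]; norm_num
        · rw [← h1m]; exact hψ _
      have h3 := key a ψ hψ (by rw [h1m, h1n])
      have hψu : ψ u = 0 := by
        rw [hu, map_sub, hψ1 (n + 1) le_rfl, hψ1 0 (Nat.zero_le _), sub_self]
      rw [h1n, hψu, add_zero] at h3
      obtain ⟨χ, hχ, hχ1⟩ := exists_norming ((x (n + 1 + 1) : X) - a)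
      have h4 : 2 ≤ χ (x (n + 1 + 1)) + χ m := by
        rw [← hχ1, ha, sub_neg_eq_add, map_add] at h3
        exact h3
      have h5 := hχ (x (n + 1 + 1))
      have h6 := hχ m
      rw [nx] at h5
      rw [hmn] at h6
      have h7 : χ m = 1 := by linarith
      refine ⟨χ, hχ, ?_⟩
      have hsum : ∑ i ∈ Finset.range (n + 2), (1 - χ (x i)) = 0 := by
        rw [Finset.sum_sub_distrib]
        have : χ m = ((n : ℝ) + 2)⁻¹ * ∑ i ∈ Finset.range (n + 2), χ (x i) := by
          rw [hm, map_smul, map_sum, smul_eq_mul]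
        rw [h7] at this
        have h8 : ∑ i ∈ Finset.range (n + 2), χ (x i) = (n : ℝ) + 2 := by
          field_simp at this
          linarith
        rw [h8]
        simp
      have hzero := (Finset.sum_eq_zero_iff_of_nonneg (fun i _ => by
        have := hχ (x i); rw [nx] at this; linarith)).1 hsum
      intro i hi
      rcases Nat.lt_or_ge i (n + 2) with h | h
      · have := hzero i (Finset.mem_range.2 h); linarith
      · have : i = n + 1 + 1 := by omega
        rw [this]; linarith
  -- conclusion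
  have d0 : d = 0 := by
    by_contra hne
    have hdpos : 0 < d := lt_of_le_of_ne (norm_nonneg _) (Ne.symm hne)
    obtain ⟨n, hn⟩ := exists_nat_gt (2 / d)
    have h3 := (claim n).2
    have h4 : ‖(x (n + 1) : X) - x 0‖ ≤ 2 := by
      refine (norm_sub_le _ _).trans ?_
      rw [nx, nx]; norm_num
    rw [h3] at h4
    rw [div_lt_iff₀ hdpos] at hn
    nlinarith
  have h3 : (x 1 : X) - x 0 = 0 := by rw [← norm_eq_zero]; exact d0
  have h4 : x 1 = x 0 := Subtype.ext (sub_eq_zero.1 h3)
  rw [xs 0, x0] at h4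
  exact h4

end W

end P084G
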