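import Vale.Agent.Lib.P084G.UTKL

/-!
# P084G: the uniqueness theorem

`UT` : on a complete space, an isometry `g` of the unit sphere onto itself which fixes a point `p` and has the identity
as one-sided derivative on the tangent cone of `p` is the identity.
-/

open Filter Topology P084G Metric

namespace Vale.Agent.P084G

universe u

section

variable {X : Type u} [NormedAddCommGroup X] [NormedSpace ℝ X]

theorem iterate_norm {g g' : X → X} (h : SIso g g') (m : ℕ) :
    ∀ x : X, ‖x‖ = 1 → ‖g^[m] x‖ = 1 := by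
  induction m with
  | zero => intro x hx; simpa using hx
  | succ m ih =>
    intro x hx
    rw [Function.iterate_succ_apply']
    exact h.mapf _ (ih x hx)

theorem iterate_inv {g g' : X → X} (h : SIso g g') (m : ℕ) :
    ∀ x : X, ‖x‖ = 1 → g'^[m] (g^[m] x) = x := by
  induction m with
  | zero => intro x _; rfl
  | succ m ih =>
    intro x hx
    rw [Function.iterate_succ_apply' g, Function.iterate_succ_apply g',
      h.gf _ (iterate_norm h m x hx)]
    exact ih x hx

theorem iterate_dist {g g' : X → X} (h : SIso g g') (m : ℕ) :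
    ∀ x x' : X, ‖x‖ = 1 → ‖x'‖ = 1 → ‖g^[m] x - g^[m] x'‖ = ‖x - x'‖ := by
  induction m with
  | zero => intro x x' _ _; rfl
  | succ m ih =>
    intro x x' hx hx'
    rw [Function.iterate_succ_apply', Function.iterate_succ_apply',
      h.dist _ _ (iterate_norm h m x hx) (iterate_norm h m x' hx')]
    exact ih x x' hx hx'

theorem SIso.iterate {g g' : X → X} (h : SIso g g') (m : ℕ) : SIso (g^[m]) (g'^[m]) where
  mapf := iterate_norm h m
  mapg := iterate_norm h.symm m
  gf := iterate_inv h m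
  fg := iterate_inv h.symm m
  dist := iterate_dist h m

/-- the class is closed under iteration -/
theorem Kl.iterate {g g' : X → X} {p : X} (K : Kl g g' p) (m : ℕ) : Kl (g^[m]) (g'^[m]) p where
  iso := K.iso.iterate m
  hp := K.hp
  fix := Function.iterate_fixed K.fix m
  der := by
    intro v hv
    induction m with
    | zero =>
      have := cur_tendsto K.hp hv
      exact this
    | succ m ih =>
      have ht : Tendsto (fun s : ℝ => s) (𝓝[>] (0 : ℝ)) (𝓝[>] 0) := tendsto_id
      have hfix : g^[m] p = p := Function.iterate_fixed K.fix m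
      have hx : ∀ᶠ t : ℝ in 𝓝[>] (0 : ℝ), ‖g^[m] (cur p v t)‖ = 1 := by
        filter_upwards [cur_norm (v := v) K.hp] with t ht
        exact iterate_norm K.iso m _ ht
      have hxv : Tendsto (fun t : ℝ => t⁻¹ • (g^[m] (cur p v t) - p)) (𝓝[>] 0) (𝓝 v) := by
        have h1 : Tendsto (fun t : ℝ => t⁻¹ • (g^[m] (cur p v t) - g^[m] p)) (𝓝[>] 0) (𝓝 v) := ih
        rwa [hfix] at h1
      have h2 := (K.der v hv).of_curve K.iso K.hp hv ht hx hxv
      have h3 : Tendsto (fun t : ℝ => t⁻¹ • (g^[m + 1] (cur p v t) - g^[m + 1] p)) (𝓝[>] 0)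
          (𝓝 v) := by
        refine h2.congr fun t => ?_
        rw [Function.iterate_succ_apply', Function.iterate_succ_apply', hfix]
      exact h3

theorem ut_halve {t0 : ℝ}
    (H : ∀ (g g' : X → X) (p : X), Kl g g' p → ∀ x1 x2 : X, ‖x1‖ = 1 → ‖x2‖ = 1 →
      ‖x1 - p‖ ≤ t0 → ‖x2 - p‖ ≤ t0 → ‖(g x2 - g x1) - (x2 - x1)‖ ≤ ‖x2 - x1‖ / 2)
    {g g' : X → X} {p : X} (K : Kl g g' p) {y : X} (hy : ‖y‖ = 1) (hyp : ‖y - p‖ ≤ t0) {C : ℝ}
    (hC : ∀ m : ℕ, ‖g^[m] y - y‖ ≤ C) (m : ℕ) : ‖g^[m] y - y‖ ≤ C / 2 := by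
  have Km := K.iterate m
  set G : X → X := g^[m] with hG
  have hC0 : 0 ≤ C := (norm_nonneg _).trans (hC 0)
  have hk : ∀ k : ℕ, ‖(G (G^[k] y) - G^[k] y) - (G y - y)‖ ≤ C / 2 := by
    intro k
    have hk1 : ‖G^[k] y‖ = 1 := iterate_norm Km.iso k y hy
    have hk2 : ‖G^[k] y - p‖ ≤ t0 := by
      have h1 := iterate_dist Km.iso k y p hy Km.hp
      have h2 : G^[k] p = p := Function.iterate_fixed Km.fix k
      rw [h2] at h1
      rw [h1]; exact hyp
    have h3 := H G (g'^[m]) p Km y (G^[k] y) hy hk1 hyp hk2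
    have h4 : ‖G^[k] y - y‖ ≤ C := by
      have : G^[k] y = g^[m * k] y := by rw [hG, ← Function.iterate_mul]
      rw [this]; exact hC _
    have h5 : (G (G^[k] y) - G^[k] y) - (G y - y) = (G (G^[k] y) - G y) - (G^[k] y - y) := by abel
    rw [h5]
    linarith
  have tele : ∀ n : ℕ, (n : ℝ) • (G y - y) = (G^[n] y - y)
      - ∑ k ∈ Finset.range n, ((G (G^[k] y) - G^[k] y) - (G y - y)) := by
    intro n
    induction n with
    | zero => simp
    | succ n ih =>
      rw [Finset.sum_range_succ, Function.iterate_succ_apply']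
      push_cast
      rw [add_smul, one_smul, ih]
      abel
  have bound : ∀ n : ℕ, (n : ℝ) * ‖G y - y‖ ≤ C + n * (C / 2) := by
    intro n
    have h1 : ‖(n : ℝ) • (G y - y)‖ = (n : ℝ) * ‖G y - y‖ := by
      rw [norm_smul, Real.norm_of_nonneg n.cast_nonneg]
    rw [← h1, tele n]
    refine (norm_sub_le _ _).trans (add_le_add ?_ ?_)
    · have : G^[n] y = g^[m * n] y := by rw [hG, ← Function.iterate_mul]
      rw [this]; exact hC _
    · refine (norm_sum_le _ _).trans ?_
      refine (Finset.sum_le_sum fun k _ => hk k).trans ?_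
      simp
  refine le_of_forall_pos_le_add fun ε hε => ?_
  obtain ⟨n, hn⟩ := exists_nat_gt (C / ε)
  rw [div_lt_iff₀ hε] at hn
  have hb := bound (n + 1)
  have hn1 : (0 : ℝ) < (n : ℝ) + 1 := by positivity
  push_cast at hb
  have : ((n : ℝ) + 1) * ‖G y - y‖ ≤ ((n : ℝ) + 1) * (C / 2 + ε) := by nlinarith
  exact le_of_mul_le_mul_left this hn1

theorem ut_local {t0 : ℝ}
    (H : ∀ (g g' : X → X) (p : X), Kl g g' p → ∀ x1 x2 : X, ‖x1‖ = 1 → ‖x2‖ = 1 →
      ‖x1 - p‖ ≤ t0 → ‖x2 - p‖ ≤ t0 → ‖(g x2 - g x1) - (x2 - x1)‖ ≤ ‖x2 - x1‖ / 2)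
    {g g' : X → X} {p : X} (K : Kl g g' p) {y : X} (hy : ‖y‖ = 1) (hyp : ‖y - p‖ ≤ t0) :
    g y = y := by
  have h1 : ∀ k : ℕ, ∀ m : ℕ, ‖g^[m] y - y‖ ≤ 2 * (1 / 2) ^ k := by
    intro k
    induction k with
    | zero =>
      intro m
      refine (norm_sub_le _ _).trans ?_
      rw [iterate_norm K.iso m y hy, hy]; norm_num
    | succ k ih =>
      intro m
      have := ut_halve H K hy hyp ih m
      rw [pow_succ]; linarith
  have h2 : ‖g y - y‖ ≤ 0 := by
    have h3 : Tendsto (fun k : ℕ => 2 * (1 / 2 : ℝ) ^ k) atTop (𝓝 (2 * 0)) :=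
      (tendsto_pow_atTop_nhds_zero_of_lt_one (by norm_num) (by norm_num)).const_mul 2
    rw [mul_zero] at h3
    exact ge_of_tendsto' h3 fun k => h1 k 1
  rwa [norm_le_zero_iff, sub_eq_zero] at h2

/-- if `g` is the identity near `x` then `(g, x)` is in the class -/
theorem Kl.of_local {g g' : X → X} (h : SIso g g') {x : X} (hx : ‖x‖ = 1) {r : ℝ} (hr : 0 < r)
    (hid : ∀ y : X, ‖y‖ = 1 → ‖y - x‖ < r → g y = y) : Kl g g' x where
  iso := h
  hp := hx
  fix := hid x hx (by rw [sub_self, norm_zero]; exact hr)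
  der := by
    intro v hv
    have hfix : g x = x := hid x hx (by rw [sub_self, norm_zero]; exact hr)
    have h1 := cur_tendsto hx hv
    have h0 : Tendsto (fun t : ℝ => ‖cur x v t - x‖) (𝓝[>] 0) (𝓝 0) := by
      have ht : Tendsto (fun t : ℝ => |t|) (𝓝[>] (0 : ℝ)) (𝓝 0) := by
        have : Tendsto (fun t : ℝ => |t|) (𝓝 0) (𝓝 |0|) := continuous_abs.tendsto 0
        rw [abs_zero] at this
        exact this.mono_left nhdsWithin_le_nhds
      have h2 := ht.mul h1.norm
      rw [zero_mul] at h2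
      refine h2.congr' ?_
      filter_upwards [self_mem_nhdsWithin] with t ht0
      have ht0 : 0 < t := ht0
      rw [norm_smul, norm_inv, Real.norm_eq_abs, ← mul_assoc,
        mul_inv_cancel₀ (abs_pos.2 ht0.ne').ne', one_mul]
    unfold HasD
    refine h1.congr' ?_
    filter_upwards [cur_norm (v := v) hx, h0.eventually_lt_const hr] with t ht1 ht2
    rw [hid _ ht1 ht2, hfix]

end

/-- **The uniqueness theorem.** -/
theorem UT (X : Type u) [NormedAddCommGroup X] [NormedSpace ℝ X] [CompleteSpace X]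
    {g g' : X → X} {p : X} (K : Kl g g' p) : ∀ x : X, ‖x‖ = 1 → g x = x := by
  obtain ⟨t0, ht0, H⟩ := ut_kl X
  rcases lt_or_ge 1 (Module.rank ℝ X) with hrank | hrank
  · have hpre : PreconnectedSpace (sphere (0 : X) 1) :=
      Subtype.preconnectedSpace (isPreconnected_sphere hrank 0 1)
    let A : Set (sphere (0 : X) 1) :=
      {x | ∃ r : ℝ, 0 < r ∧ ∀ y : X, ‖y‖ = 1 → ‖y - x‖ < r → g y = y}
    have hA : ∀ x : sphere (0 : X) 1, x ∈ A → ∀ y : X, ‖y‖ = 1 → ‖y - x‖ ≤ t0 → g y = y := by
      rintro x ⟨r, hr, hid⟩ y hy hyx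
      have hx : ‖(x : X)‖ = 1 := by simp
      exact ut_local H (Kl.of_local K.iso hx hr hid) hy hyx
    have hopen : IsOpen A := by
      rw [Metric.isOpen_iff]
      intro x hx
      refine ⟨t0 / 2, by positivity, fun z hz => ⟨t0 / 2, by positivity, fun y hy hyz => ?_⟩⟩
      refine hA x hx y hy ?_
      have h1 : ‖(z : X) - x‖ < t0 / 2 := by
        rw [mem_ball, Subtype.dist_eq, dist_eq_norm] at hz; exact hz
      have h2 : y - (x : X) = (y - z) + (z - x) := by abel
      rw [h2]
      exact (norm_add_le _ _).trans (by linarith)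
    have hclosed : IsClosed A := by
      rw [← isOpen_compl_iff, Metric.isOpen_iff]
      intro x hx
      refine ⟨t0 / 2, by positivity, fun z hz hzA => hx ?_⟩
      refine ⟨t0 / 2, by positivity, fun y hy hyx => ?_⟩
      refine hA z hzA y hy ?_
      have h1 : ‖(x : X) - z‖ < t0 / 2 := by
        rw [mem_ball, Subtype.dist_eq, dist_eq_norm, norm_sub_rev] at hz; exact hz
      have h2 : y - (z : X) = (y - x) + (x - z) := by abel
      rw [h2]
      exact (norm_add_le _ _).trans (by linarith)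
    have huniv : A = Set.univ := by
      refine IsClopen.eq_univ ⟨hclosed, hopen⟩ ⟨⟨p, by simp [K.hp]⟩, ?_⟩
      refine ⟨t0, ht0, fun y hy hyp => ?_⟩
      exact ut_local H K hy hyp.le
    intro x hx
    have hxA : (⟨x, by simp [hx]⟩ : sphere (0 : X) 1) ∈ A := by rw [huniv]; trivial
    obtain ⟨r, hr, hid⟩ := hxA
    exact hid x hx (by simpa using hr)
  · -- dimension at most one
    obtain ⟨v0, hv0⟩ := rank_le_one_iff.1 hrank
    have hpm : ∀ x : X, ‖x‖ = 1 → x = p ∨ x = -p := by
      intro x hx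
      obtain ⟨a, ha⟩ := hv0 x
      obtain ⟨b, hb⟩ := hv0 p
      have hp := K.hp
      have hb0 : b ≠ 0 := by
        rintro rfl
        rw [zero_smul] at hb
        rw [← hb, norm_zero] at hp
        exact zero_ne_one hp
      have e : x = (a / b) • p := by
        rw [← hb, smul_smul, div_mul_cancel₀ _ hb0, ha]
      have h1 : |a / b| = 1 := by
        rw [e, norm_smul, hp, mul_one, Real.norm_eq_abs] at hx
        exact hx
      rcases eq_or_eq_neg_of_abs_eq h1 with h | h
      · left; rw [e, h, one_smul]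
      · right; rw [e, h, neg_smul, one_smul]
    intro x hx
    rcases hpm x hx with h | h
    · rw [h]; exact K.fix
    · rcases hpm (g x) (K.iso.mapf x hx) with h' | h'
      · exfalso
        have h2 := K.iso.gf x hx
        have h3 := K.iso.gf p K.hp
        rw [K.fix] at h3
        rw [h', h3] at h2
        rw [h] at h2
        have h4 : p = 0 := by
          have h5 : (2 : ℝ) • p = 0 := by
            rw [two_smul]
            nth_rewrite 1 [h2]
            simp
          rcases smul_eq_zero.1 h5 with h6 | h6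
          · norm_num at h6
          · exact h6
        have hp := K.hp
        rw [h4, norm_zero] at hp
        exact zero_ne_one hp
      · rw [h', h]

end Vale.Agent.P084G
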