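import Vale.Agent.Lib.P084G.UTRel
import Vale.Agent.Lib.P084G.A.Gen
import Vale.Agent.Lib.P084G.A.BLq
import Vale.Agent.Lib.P084G.A.FW
import Vale.Agent.Lib.P084G.A.Cur
import Vale.Agent.Lib.P084G.A.DerivCone

/-!
# P084G, uniqueness theorem: the estimate at one index

`Kl g g' p` : `g` is an isometry of the sphere onto itself which fixes `p` and has the identity as derivative on the
tangent cone of `p`.

`ut_core` : if `g` moves two points `x1, x2` near `p` relatively to each other by more than half of their distance then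
`|nd p u| ≥ 1/128` for `u = (x2 - x1)/‖x2 - x1‖`, and if moreover `nd p u ≥ 1/128` then the symmetric second
difference of `g - id` at `p` in the direction `u` is not small.
-/

open Filter Topology

namespace Vale.Agent.P084G

universe u

/-- the class of the uniqueness theorem -/
structure Kl {X : Type u} [NormedAddCommGroup X] [NormedSpace ℝ X] (g g' : X → X) (p : X) : Prop where
  iso : SIso g g'
  hp : ‖p‖ = 1
  fix : g p = p
  der : ∀ v, nd p v = 0 → HasD g p v v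

section

variable {X : Type u} [NormedAddCommGroup X] [NormedSpace ℝ X]

theorem ut_r1 {g g' : X → X} (h : SIso g g') {p x1 x2 y : X} (hp : ‖p‖ = 1) (h1 : ‖x1‖ = 1)
    (h2 : ‖x2‖ = 1) (hy : ‖y‖ = 1) {τ δ η : ℝ} (hτ : 0 < τ) (hτδ : τ ≤ δ) (hη : 0 ≤ η)
    (ha : ‖x1 - p‖ ≤ η * δ)
    (hD : Dq δ (p - y) (τ⁻¹ • (x2 - x1)) ≤ η) (hD' : Dq δ (g p - g y) (τ⁻¹ • (g x2 - g x1)) ≤ η)
    {ψ ψ' : X →L[ℝ] ℝ} (hψ : Nrm ψ (p - y)) (hψ' : Nrm ψ' (g p - g y)) :
    |ψ' (g x2 - g x1) - ψ (x2 - x1)| ≤ 6 * η * τ := by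
  have ha' : ‖g x1 - g p‖ ≤ η * δ := by rwa [h.dist x1 p h1 hp]
  refine two_sided (a := x1 - p) (a' := g x1 - g p) hψ hψ' hτ hτδ hη hD hD' ha ha' ?_ ?_
  · have e1 : p - y + (x1 - p) = x1 - y := by abel
    have e2 : g p - g y + (g x1 - g p) = g x1 - g y := by abel
    rw [e1, e2, h.dist x1 y h1 hy]
  · have e1 : p - y + (x1 - p) + (x2 - x1) = x2 - y := by abel
    have e2 : g p - g y + (g x1 - g p) + (g x2 - g x1) = g x2 - g y := by abel
    rw [e1, e2, h.dist x2 y h2 hy]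

theorem ut_r2 {g g' : X → X} (h : SIso g g') {p y v : X} (hp : ‖p‖ = 1)
    (hy : ‖y‖ = 1) {δ η : ℝ} (hδ : 0 < δ) (hη : 0 ≤ η) (hv : nd p v = 0) (hg : HasD g p v v)
    (hD : Dq δ (p - y) v ≤ η) (hD' : Dq δ (g p - g y) v ≤ η)
    {ψ ψ' : X →L[ℝ] ℝ} (hψ : Nrm ψ (p - y)) (hψ' : Nrm ψ' (g p - g y)) :
    |ψ' v - ψ v| ≤ 6 * η := by
  have hc := cur_tendsto hp hv
  have h3 : Tendsto (fun t : ℝ => 6 * η + ‖t⁻¹ • (cur p v t - p) - v‖
      + ‖t⁻¹ • (g (cur p v t) - g p) - v‖) (𝓝[>] 0) (𝓝 (6 * η + 0 + 0)) := by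
    refine (tendsto_const_nhds.add ?_).add ?_
    · have := (hc.sub_const v).norm
      simpa using this
    · have := (Tendsto.sub_const hg v).norm
      simpa using this
  simp only [add_zero] at h3
  refine ge_of_tendsto h3 ?_
  have hev : ∀ᶠ t : ℝ in 𝓝[>] (0 : ℝ), t ≤ δ := by
    have : ∀ᶠ t : ℝ in 𝓝 (0 : ℝ), t ≤ δ := (eventually_lt_nhds hδ).mono fun t ht => ht.le
    exact this.filter_mono nhdsWithin_le_nhds
  filter_upwards [cur_norm hp, hev, self_mem_nhdsWithin] with t ht1 htδ ht0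
  have ht0 : 0 < t := ht0
  set x := cur p v t with hx
  set r : X := t⁻¹ • (x - p) - v with hr
  set r' : X := t⁻¹ • (g x - g p) - v with hr'
  have e1 : x - y = (p - y + t • v) + t • r := by
    rw [hr, smul_sub, smul_smul, mul_inv_cancel₀ ht0.ne', one_smul]; abel
  have e2 : g x - g y = (g p - g y + t • v) + t • r' := by
    rw [hr', smul_sub, smul_smul, mul_inv_cancel₀ ht0.ne', one_smul]; abel
  have d1 := h.dist x y ht1 hy
  have d2 := h.dist p y hp hy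
  have i1 := inc_bound0 hψ v ht0 htδ hη hD
  have i2 := inc_bound0 hψ' v ht0 htδ hη hD'
  have n1 : |‖x - y‖ - ‖p - y + t • v‖| ≤ t * ‖r‖ := by
    have := abs_norm_sub_norm_le (x - y) (p - y + t • v)
    rw [e1, add_sub_cancel_left, norm_smul, Real.norm_of_nonneg ht0.le] at this
    rw [e1]; exact this
  have n2 : |‖g x - g y‖ - ‖g p - g y + t • v‖| ≤ t * ‖r'‖ := by
    have := abs_norm_sub_norm_le (g x - g y) (g p - g y + t • v)
    rw [e2, add_sub_cancel_left, norm_smul, Real.norm_of_nonneg ht0.le] at this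
    rw [e2]; exact this
  rw [abs_le] at i1 i2 n1 n2 ⊢
  rw [d1] at n2
  rw [d2] at i2
  constructor
  · have : t * (-(6 * η + ‖r‖ + ‖r'‖)) ≤ t * (ψ' v - ψ v) := by
      linarith [i1.1, i1.2, i2.1, i2.2, n1.1, n1.2, n2.1, n2.2]
    exact le_of_mul_le_mul_left this ht0
  · have : t * (ψ' v - ψ v) ≤ t * (6 * η + ‖r‖ + ‖r'‖) := by
      linarith [i1.1, i1.2, i2.1, i2.2, n1.1, n1.2, n2.1, n2.2]
    exact le_of_mul_le_mul_left this ht0

theorem cur_norm' {p v : X} (hp : ‖p‖ = 1) (hv : ‖v‖ = 1) {s : ℝ} (hs : |s| < 1) :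
    ‖cur p v s‖ = 1 := by
  unfold cur
  have h1 : 0 < ‖p + s • v‖ := by
    have h2 : ‖p‖ ≤ ‖p + s • v‖ + ‖s • v‖ := by
      have : p = (p + s • v) - s • v := by abel
      calc ‖p‖ = ‖(p + s • v) - s • v‖ := by rw [← this]
        _ ≤ _ := norm_sub_le _ _
    rw [norm_smul, hv, hp, Real.norm_eq_abs] at h2
    linarith
  rw [norm_smul, norm_inv, norm_norm, inv_mul_cancel₀ h1.ne']

theorem cur_sub_norm {p v : X} (hp : ‖p‖ = 1) (hv : ‖v‖ = 1) {s : ℝ} (hs0 : 0 ≤ s) (hs : s < 1) :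
    ‖cur p v s - p‖ ≤ 2 * s := by
  have hc := cur_norm' hp hv (s := s) (by rw [abs_of_nonneg hs0]; exact hs)
  set r := ‖p + s • v‖ with hr
  have h1 : |r - 1| ≤ s := by
    have := abs_norm_sub_norm_le (p + s • v) p
    rwa [hp, add_sub_cancel_left, norm_smul, hv, mul_one, Real.norm_of_nonneg hs0] at this
  have hrpos : 0 < r := by rw [abs_le] at h1; linarith [h1.1]
  have e : cur p v s - p = (1 - r) • cur p v s + s • v := by
    have : p + s • v = r • cur p v s := by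
      unfold cur
      rw [← hr, smul_smul, mul_inv_cancel₀ hrpos.ne', one_smul]
    rw [sub_smul, one_smul, ← this]; abel
  rw [e]
  refine (norm_add_le _ _).trans ?_
  rw [norm_smul, norm_smul, hc, hv, Real.norm_eq_abs, Real.norm_eq_abs, abs_sub_comm,
    abs_of_nonneg hs0]
  linarith

/-- real arithmetic used at the end of `ut_core` -/
theorem ut_arith {lam s rp rm dw : ℝ} (hs0 : 0 < s) (hs5 : s ≤ 1 / 500000)
    (hrp1 : |rp - 1| ≤ s) (hrm1 : |rm - 1| ≤ s) (hrplow : 1 + s / 128 ≤ rp)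
    (hrmlow : 1 - s / 2048 ≤ rm) (hww : |dw| ≤ 2)
    (F1 : |((rp⁻¹ + rm⁻¹) * lam + s * (rp⁻¹ - rm⁻¹) * dw) - 2 * lam| ≤ 13 / 1000000 * s) :
    |lam| ≤ 512 * (13 / 1000000 + 8 * s) := by
  rw [abs_le] at hrp1 hrm1
  have hrp0 : 0 < rp := by linarith [hrp1.1]
  have hrm0 : 0 < rm := by linarith [hrm1.1]
  have hinv : |rp⁻¹ - rm⁻¹| ≤ 4 * s := by
    have e : rp⁻¹ - rm⁻¹ = (rm - rp) / (rp * rm) := by
      field_simp
    rw [e, abs_div, abs_of_pos (mul_pos hrp0 hrm0), div_le_iff₀ (mul_pos hrp0 hrm0)]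
    have c1 : |rm - rp| ≤ 2 * s := by
      rw [abs_le]; constructor <;> linarith [hrp1.1, hrp1.2, hrm1.1, hrm1.2]
    have c2 : 1 / 2 ≤ rp * rm := by nlinarith [hrp1.1, hrm1.1]
    nlinarith
  have om : s / 512 ≤ 2 - (rp⁻¹ + rm⁻¹) := by
    have d1 : rp⁻¹ ≤ 1 - s / 256 := by
      rw [inv_le_iff_one_le_mul₀ hrp0]
      have : (1 - s / 256) * (1 + s / 128) ≤ (1 - s / 256) * rp :=
        mul_le_mul_of_nonneg_left hrplow (by linarith)
      nlinarith
    have d2 : rm⁻¹ ≤ 1 + s / 1024 := by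
      rw [inv_le_iff_one_le_mul₀ hrm0]
      have : (1 + s / 1024) * (1 - s / 2048) ≤ (1 + s / 1024) * rm :=
        mul_le_mul_of_nonneg_left hrmlow (by linarith)
      nlinarith
    linarith
  have F3 : (2 - (rp⁻¹ + rm⁻¹)) * |lam| ≤ 13 / 1000000 * s + 8 * s ^ 2 := by
    have g0 : 0 ≤ 2 - (rp⁻¹ + rm⁻¹) := by linarith
    have g1 : (2 - (rp⁻¹ + rm⁻¹)) * |lam| = |(2 - (rp⁻¹ + rm⁻¹)) * lam| := by
      rw [abs_mul, abs_of_nonneg g0]
    have g2 : (2 - (rp⁻¹ + rm⁻¹)) * lam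
        = -(((rp⁻¹ + rm⁻¹) * lam + s * (rp⁻¹ - rm⁻¹) * dw) - 2 * lam)
          + s * (rp⁻¹ - rm⁻¹) * dw := by ring
    rw [g1, g2]
    refine (abs_add_le _ _).trans ?_
    rw [abs_neg]
    refine add_le_add F1 ?_
    rw [abs_mul, abs_mul, abs_of_pos hs0]
    calc s * |rp⁻¹ - rm⁻¹| * |dw| ≤ s * (4 * s) * 2 := by
          gcongr
      _ = 8 * s ^ 2 := by ring
  have F4 : s / 512 * |lam| ≤ 13 / 1000000 * s + 8 * s ^ 2 :=
    (mul_le_mul_of_nonneg_right om (abs_nonneg _)).trans F3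
  have h5 : s * |lam| ≤ s * (512 * (13 / 1000000 + 8 * s)) := by nlinarith
  exact le_of_mul_le_mul_left h5 hs0

/-- the conclusion of `ut_core` from the relations between the norming functionals -/
theorem ut_fin {g : X → X} {p x1 x2 w v xp xm : X} {κ τ s : ℝ} (hp : ‖p‖ = 1) (fix : g p = p)
    (hτ : 0 < τ) (hs0 : 0 < s) (hs5 : s ≤ 1 / 500000) (hτw : x2 - x1 = τ • w) (hwn : ‖w‖ = 1)
    (hv : v = w + (-κ) • p) (hκ : κ = nd p w) (hκ1 : |κ| ≤ 1)
    (hxp : xp = cur p w s) (hxm : xm = cur p (-w) s) {ψ ψ' : X →L[ℝ] ℝ}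
    (hψ : ∀ a, |ψ a| ≤ ‖a‖) (hψ' : ∀ a, |ψ' a| ≤ ‖a‖)
    (R1 : |ψ' (g x2 - g x1) - ψ (x2 - x1)| ≤ 6 * (1 / 1000000) * τ)
    (R2 : |ψ' v - ψ v| ≤ 6 * (1 / 1000000))
    (R3 : |ψ' (g xp - g p) - ψ (xp - p)| ≤ 6 * (1 / 1000000) * s)
    (R4 : |ψ' (g xm - g p) - ψ (xm - p)| ≤ 6 * (1 / 1000000) * s)
    (S1 : ‖(g x2 - g x1) - (x2 - x1)‖ / 16 ≤ |ψ' ((g x2 - g x1) - (x2 - x1))|)
    (hbig : τ / 2 < ‖(g x2 - g x1) - (x2 - x1)‖) :
    1 / 128 ≤ |κ| ∧ (1 / 128 ≤ κ → 1 - s / 2048 ≤ ‖p - s • w‖ →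
      s / 1000000 < ‖(g xp + g xm) - (xp + xm)‖) := by
  set lam := ψ' p - ψ p with hlam
  have hlam2 : |lam| ≤ 2 := by
    have b1 := hψ' p
    have b2 := hψ p
    rw [hp] at b1 b2
    rw [hlam]
    rw [abs_le] at b1 b2 ⊢
    constructor <;> linarith [b1.1, b1.2, b2.1, b2.2]
  have eK : ψ' ((g x2 - g x1) - (x2 - x1)) = (ψ' (g x2 - g x1) - ψ (x2 - x1))
      - τ * (ψ' v - ψ v) - τ * (κ * lam) := by
    have e1 : w = v + κ • p := by rw [hv]; module
    rw [map_sub, hlam]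
    have e2 : ψ' (x2 - x1) = τ * (ψ' v + κ * ψ' p) := by
      rw [hτw, map_smul, e1, map_add, map_smul, smul_eq_mul, smul_eq_mul]
    have e3 : ψ (x2 - x1) = τ * (ψ v + κ * ψ p) := by
      rw [hτw, map_smul, e1, map_add, map_smul, smul_eq_mul, smul_eq_mul]
    rw [e2, e3]; ring
  have bound : τ / 2 / 16 ≤ 6 * (1 / 1000000) * τ + τ * (6 * (1 / 1000000)) + τ * |κ * lam| := by
    have c1 : τ / 2 / 16 ≤ ‖(g x2 - g x1) - (x2 - x1)‖ / 16 := by linarith
    refine (c1.trans S1).trans ?_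
    rw [eK]
    refine (abs_sub _ _).trans ?_
    refine add_le_add ((abs_sub _ _).trans (add_le_add R1 ?_)) ?_
    · rw [abs_mul, abs_of_pos hτ]
      exact mul_le_mul_of_nonneg_left R2 hτ.le
    · rw [abs_mul, abs_of_pos hτ]
  have bound2 : 1 / 32 ≤ 12 / 1000000 + |κ| * |lam| := by
    rw [abs_mul] at bound
    have : τ * (1 / 32) ≤ τ * (12 / 1000000 + |κ| * |lam|) := by linarith
    exact le_of_mul_le_mul_left this hτ
  refine ⟨?_, ?_⟩
  · by_contra hlt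
    push Not at hlt
    have : |κ| * |lam| ≤ (1 / 128) * 2 :=
      mul_le_mul hlt.le hlam2 (abs_nonneg _) (by norm_num)
    linarith
  · intro hκpos hmin
    by_contra hle
    push Not at hle
    -- second difference relation
    set rp := ‖p + s • w‖ with hrp
    set rm := ‖p + s • (-w)‖ with hrm
    have hrp1 : |rp - 1| ≤ s := by
      have := abs_norm_sub_norm_le (p + s • w) p
      rwa [hp, add_sub_cancel_left, norm_smul, hwn, mul_one, Real.norm_of_nonneg hs0.le] at this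
    have hrm1 : |rm - 1| ≤ s := by
      have := abs_norm_sub_norm_le (p + s • (-w)) p
      rwa [hp, add_sub_cancel_left, norm_smul, norm_neg, hwn, mul_one,
        Real.norm_of_nonneg hs0.le] at this
    rw [abs_le] at hrp1 hrm1
    have hrp0 : 0 < rp := by linarith [hrp1.1]
    have hrm0 : 0 < rm := by linarith [hrm1.1]
    have hrplow : 1 + s / 128 ≤ rp := by
      have := nd_le p w hs0
      rw [← hκ, hp, ← hrp, le_div_iff₀ hs0] at this
      nlinarith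
    have hrmlow : 1 - s / 2048 ≤ rm := by
      rw [hrm]
      have : p + s • (-w) = p - s • w := by rw [smul_neg, sub_eq_add_neg]
      rw [this]; exact hmin
    have exp : xp = rp⁻¹ • (p + s • w) := hxp
    have exm : xm = rm⁻¹ • (p + s • (-w)) := hxm
    -- the functional
    have F : (ψ' (xp + xm) - ψ (xp + xm)) - 2 * lam
        = (ψ' (g xp - g p) - ψ (xp - p)) + (ψ' (g xm - g p) - ψ (xm - p))
          - ψ' ((g xp + g xm) - (xp + xm)) := by
      simp only [map_sub, map_add, fix, hlam]; ring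
    have hle' : |ψ' ((g xp + g xm) - (xp + xm))| ≤ s / 1000000 := (hψ' _).trans hle
    have F1 : |(ψ' (xp + xm) - ψ (xp + xm)) - 2 * lam| ≤ 13 / 1000000 * s := by
      rw [F]
      rw [abs_le] at R3 R4 hle' ⊢
      constructor <;> linarith [R3.1, R3.2, R4.1, R4.2, hle'.1, hle'.2]
    have F2 : (ψ' (xp + xm) - ψ (xp + xm))
        = (rp⁻¹ + rm⁻¹) * lam + s * (rp⁻¹ - rm⁻¹) * (ψ' w - ψ w) := by
      rw [exp, exm]
      simp only [map_add, map_smul, map_neg, smul_eq_mul, hlam]; ring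
    rw [F2] at F1
    have hww : |ψ' w - ψ w| ≤ 2 := by
      have b1 := hψ' w
      have b2 := hψ w
      rw [hwn] at b1 b2
      rw [abs_le] at b1 b2 ⊢
      constructor <;> linarith [b1.1, b1.2, b2.1, b2.2]
    have F4 : |lam| ≤ 512 * (13 / 1000000 + 8 * s) :=
      ut_arith hs0 hs5 (abs_le.2 hrp1) (abs_le.2 hrm1) hrplow hrmlow hww F1
    have F5 : |κ| * |lam| ≤ 1 * |lam| := mul_le_mul_of_nonneg_right hκ1 (abs_nonneg _)
    linarith

end

/-- the estimate at one index -/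
theorem ut_core : ∃ δ : ℝ, 0 < δ ∧ δ ≤ 1 / 500000 ∧
    ∀ (X : Type u) [NormedAddCommGroup X] [NormedSpace ℝ X] (g g' : X → X) (p x1 x2 : X),
      Kl g g' p → ‖x1‖ = 1 → ‖x2‖ = 1 → ‖x1 - p‖ ≤ δ / 1000000 → ‖x2 - p‖ ≤ δ / 1000000 →
      ‖x2 - x1‖ / 2 < ‖(g x2 - g x1) - (x2 - x1)‖ → ∀ s : ℝ, 0 < s → s ≤ δ →
      1 / 128 ≤ |nd p (‖x2 - x1‖⁻¹ • (x2 - x1))| ∧
      (1 / 128 ≤ nd p (‖x2 - x1‖⁻¹ • (x2 - x1)) →
        1 - s / 2048 ≤ ‖p - s • (‖x2 - x1‖⁻¹ • (x2 - x1))‖ →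
        s / 1000000 < ‖(g (cur p (‖x2 - x1‖⁻¹ • (x2 - x1)) s)
          + g (cur p (-(‖x2 - x1‖⁻¹ • (x2 - x1))) s))
          - (cur p (‖x2 - x1‖⁻¹ • (x2 - x1)) s + cur p (-(‖x2 - x1‖⁻¹ • (x2 - x1))) s)‖) := by
  obtain ⟨δG, hδG, H⟩ := gen.{u, u} 8 4 ((1 / 36) ^ 2 / 8) (1 / 1000000) (by norm_num) (by norm_num)
    (by norm_num) (by norm_num) (by norm_num)
  refine ⟨min δG (1 / 500000), by positivity, min_le_right _ _, ?_⟩
  intro X _ _ g g' p x1 x2 K h1 h2 ha1 ha2 hbig s hs0 hsδ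
  have hδ1 : min δG (1 / 500000) ≤ δG := min_le_left _ _
  have hδ2 : min δG (1 / 500000) ≤ 1 / 500000 := min_le_right _ _
  have hsG : s ≤ δG := hsδ.trans hδ1
  have hs5 : s ≤ 1 / 500000 := hsδ.trans hδ2
  have hs1 : s < 1 := by linarith
  obtain ⟨iso, hp, fix, der⟩ := K
  set τ := ‖x2 - x1‖ with hτdef
  have hτ : 0 < τ := by
    rcases eq_or_lt_of_le (norm_nonneg (x2 - x1)) with h | h
    · exfalso
      have h0 : x2 = x1 := by rw [← sub_eq_zero, ← norm_eq_zero]; exact h.symm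
      have h00 : τ = 0 := h.symm
      rw [h0, h00] at hbig
      simp at hbig
    · exact h
  have hτδ : τ ≤ δG := by
    have : τ ≤ ‖x1 - p‖ + ‖x2 - p‖ := by
      have e : x2 - x1 = (x2 - p) - (x1 - p) := by abel
      rw [hτdef, e]
      refine (norm_sub_le _ _).trans ?_
      linarith
    linarith
  set w : X := τ⁻¹ • (x2 - x1) with hw
  have hwn : ‖w‖ = 1 := by
    rw [hw, norm_smul, norm_inv, Real.norm_of_nonneg hτ.le, ← hτdef, inv_mul_cancel₀ hτ.ne']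
  have hτw : x2 - x1 = τ • w := by
    rw [hw, smul_smul, mul_inv_cancel₀ hτ.ne', one_smul]
  set κ := nd p w with hκ
  -- Birkhoff
  obtain ⟨q0, hq0, hgap, hsep⟩ := blq hp ((g x2 - g x1) - (x2 - x1))
  set y0 := g' q0 with hy0
  have hy0n : ‖y0‖ = 1 := iso.mapg q0 hq0
  have hgp : g' p = p := by
    have := iso.gf p hp
    rwa [fix] at this
  have hgap1 : ‖p + y0‖ ≤ 2 - 2 * ((1 / 36) ^ 2 / 8) := by
    have := gap_image iso.symm hp hq0 (c := 1 / 36) (by norm_num) hgap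
    rwa [hgp] at this
  have hgy0 : g y0 = q0 := iso.fg q0 hq0
  have hgap2 : ‖g p + g y0‖ ≤ 2 - 2 * ((1 / 36) ^ 2 / 8) := by
    rw [fix, hgy0]
    refine hgap.trans ?_
    norm_num
  -- the tests
  set xp := cur p w s with hxp
  set xm := cur p (-w) s with hxm
  have hxpn : ‖xp‖ = 1 := cur_norm' hp hwn (by rw [abs_of_pos hs0]; exact hs1)
  have hxmn : ‖xm‖ = 1 :=
    cur_norm' hp (by rw [norm_neg]; exact hwn) (by rw [abs_of_pos hs0]; exact hs1)
  have hxp2 : ‖xp - p‖ ≤ 2 * s := cur_sub_norm hp hwn hs0.le hs1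
  have hxm2 : ‖xm - p‖ ≤ 2 * s := cur_sub_norm hp (by rw [norm_neg]; exact hwn) hs0.le hs1
  have hxp3 : ‖g xp - g p‖ ≤ 2 * s := by rw [iso.dist xp p hxpn hp]; exact hxp2
  have hxm3 : ‖g xm - g p‖ ≤ 2 * s := by rw [iso.dist xm p hxmn hp]; exact hxm2
  set v : X := w + (-κ) • p with hv
  have hvnd : nd p v = 0 := by
    rw [hv, nd_add_smul_self hp w (-κ), ← hκ]; ring
  have hκ1 : |κ| ≤ 1 := by
    have a1 := nd_le_norm p w
    have a2 := nd_le_norm p (-w)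
    have a3 := nd_neg_add_nonneg p w
    rw [norm_neg] at a2
    rw [hwn] at a1 a2
    rw [abs_le]
    constructor <;> linarith
  have hvn : ‖v‖ ≤ 4 := by
    rw [hv]
    refine (norm_add_le _ _).trans ?_
    rw [hwn, norm_smul, hp, norm_neg, Real.norm_eq_abs]
    linarith
  let L : List (X ⊕ X) := [Sum.inl (τ⁻¹ • (x2 - x1)), Sum.inl v, Sum.inl (s⁻¹ • (xp - p)),
    Sum.inl (s⁻¹ • (xm - p)), Sum.inr (τ⁻¹ • (g x2 - g x1)), Sum.inr v,
    Sum.inr (s⁻¹ • (g xp - g p)), Sum.inr (s⁻¹ • (g xm - g p))]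
  have hsmall : ∀ a : X, ‖a‖ ≤ 2 * s → ‖s⁻¹ • a‖ ≤ 4 := by
    intro a ha
    rw [norm_smul, norm_inv, Real.norm_of_nonneg hs0.le]
    rw [inv_mul_le_iff₀ hs0]
    linarith
  obtain ⟨y, hy, hyy0, hL1, hL2⟩ := H X X g g' p y0 L iso hp hy0n hgap1 hgap2 (by simp [L])
    (by
      intro a ha
      simp only [L, List.mem_cons, Sum.inl.injEq, reduceCtorEq, List.not_mem_nil, or_false] at ha
      rcases ha with rfl | rfl | rfl | rfl
      · rw [hwn]; norm_num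
      · exact hvn
      · exact hsmall _ hxp2
      · exact hsmall _ hxm2)
    (by
      intro b hb
      simp only [L, List.mem_cons, Sum.inr.injEq, reduceCtorEq, List.not_mem_nil, or_false,
        false_or] at hb
      rcases hb with rfl | rfl | rfl | rfl
      · rw [norm_smul, norm_inv, Real.norm_of_nonneg hτ.le, iso.dist x2 x1 h2 h1, ← hτdef,
          inv_mul_cancel₀ hτ.ne']
        norm_num
      · exact hvn
      · exact hsmall _ hxp3
      · exact hsmall _ hxm3)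
  obtain ⟨ψ, hψ⟩ := exists_nrm (p - y)
  obtain ⟨ψ', hψ'⟩ := exists_nrm (g p - g y)
  have T1 := hL1 (τ⁻¹ • (x2 - x1)) (by simp [L])
  have T2 := hL1 v (by simp [L])
  have T3 := hL1 (s⁻¹ • (xp - p)) (by simp [L])
  have T4 := hL1 (s⁻¹ • (xm - p)) (by simp [L])
  have T5 := hL2 (τ⁻¹ • (g x2 - g x1)) (by simp [L])
  have T6 := hL2 v (by simp [L])
  have T7 := hL2 (s⁻¹ • (g xp - g p)) (by simp [L])
  have T8 := hL2 (s⁻¹ • (g xm - g p)) (by simp [L])
  have ha1' : ‖x1 - p‖ ≤ 1 / 1000000 * δG := by linarith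
  have R1 := ut_r1 iso hp h1 h2 hy hτ hτδ (by norm_num) ha1' T1 T5 hψ hψ'
  have R2 := ut_r2 iso hp hy hδG (by norm_num) hvnd (der v hvnd) T2 T6 hψ hψ'
  have hpp : ‖p - p‖ ≤ 1 / 1000000 * δG := by rw [sub_self, norm_zero]; positivity
  have R3 := ut_r1 iso hp hp hxpn hy hs0 hsG (by norm_num) hpp T3 T7 hψ hψ'
  have R4 := ut_r1 iso hp hp hxmn hy hs0 hsG (by norm_num) hpp T4 T8 hψ hψ'
  -- separation
  have hyq : ‖g y - q0‖ ≤ 1 / 600 := by
    rw [← hgy0, iso.dist y y0 hy hy0n]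
    linarith
  have S1 := hsep (g y) hyq ψ' (by rw [← fix]; rw [fix]; rwa [fix] at hψ')
  exact ut_fin hp fix hτ hs0 hs5 hτw hwn hv hκ hκ1 hxp hxm (fun a => hψ.abs_le a)
    (fun a => hψ'.abs_le a) R1 R2 R3 R4 S1 hbig
end Vale.Agent.P084G
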