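import Vale.Agent.Lib.P084G.UltraF
import Vale.Agent.Lib.P084G.A.NSMain

/-!
# P084G, uniqueness theorem: the contraction estimate

`ut_kl` : on a complete space there is `t0 > 0` such that every `g` of the class `Kl g g' p` satisfies
`‖(g x2 - g x1) - (x2 - x1)‖ ≤ ‖x2 - x1‖ / 2` for all `x1, x2` of the sphere within `t0` of `p`.
-/

open Filter Topology P084G

namespace Vale.Agent.P084G

universe u

section

variable {X : Type u} [NormedAddCommGroup X] [NormedSpace ℝ X]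

/-- At a fixed point with a kink, whose derivative is a linear isometry fixing the point, the symmetric second
difference of `g - id` is `o(s)`. -/
theorem second_small {g g' : X → X} (h : SIso g g') {p : X} (hp : ‖p‖ = 1) (fix : g p = p)
    (G : X ≃ₗᵢ[ℝ] X) (hG : ∀ v, nd p v = 0 → HasD g p v (G v)) (hGp : G p = p) (w : X)
    {ε : ℝ} (hε : 0 < ε) : ∀ᶠ s : ℝ in 𝓝[>] 0,
      ‖(g (cur p w s) + g (cur p (-w) s)) - (cur p w s + cur p (-w) s)‖ < ε * s := by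
  set vp : X := w - nd p w • p with hvp
  set vm : X := -w - nd p (-w) • p with hvm
  have hvp0 : nd p vp = 0 := by
    have := nd_add_smul_self hp w (-(nd p w))
    rw [neg_smul, ← sub_eq_add_neg] at this
    rw [hvp, this]; ring
  have hvm0 : nd p vm = 0 := by
    have := nd_add_smul_self hp (-w) (-(nd p (-w)))
    rw [neg_smul, ← sub_eq_add_neg] at this
    rw [hvm, this]; ring
  have c1 := cur_tendsto' hp w
  have c2 := cur_tendsto' hp (-w)
  have ht : Tendsto (fun s : ℝ => s) (𝓝[>] (0 : ℝ)) (𝓝[>] 0) := tendsto_id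
  have d1 := (hG vp hvp0).of_curve h hp hvp0 ht (cur_norm (v := w) hp) c1
  have d2 := (hG vm hvm0).of_curve h hp hvm0 ht (cur_norm (v := -w) hp) c2
  have hsum : G vp + G vm = vp + vm := by
    have e : vp + vm = -(nd p w + nd p (-w)) • p := by
      rw [hvp, hvm]; module
    rw [← map_add, e, map_smul, hGp]
  have d3 := ((d1.add d2).sub (c1.add c2)).norm
  rw [← hvp, ← hvm, hsum, sub_self, norm_zero] at d3
  have hev := d3.eventually_lt_const hε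
  filter_upwards [hev, self_mem_nhdsWithin] with s hs hs0
  have hs0 : 0 < s := hs0
  have e : s⁻¹ • (g (cur p w s) - g p) + s⁻¹ • (g (cur p (-w) s) - g p)
      - (s⁻¹ • (cur p w s - p) + s⁻¹ • (cur p (-w) s - p))
      = s⁻¹ • ((g (cur p w s) + g (cur p (-w) s)) - (cur p w s + cur p (-w) s)) := by
    rw [fix]; module
  rw [e, norm_smul, norm_inv, Real.norm_of_nonneg hs0.le, inv_mul_lt_iff₀ hs0, mul_comm] at hs
  exact hs

/-- one badly moved pair, with `nd p w ≥ 1/128` -/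
theorem bad_pair {δ : ℝ}
    (hδ : ∀ (g g' : X → X) (p x1 x2 : X),
      Kl g g' p → ‖x1‖ = 1 → ‖x2‖ = 1 → ‖x1 - p‖ ≤ δ / 1000000 → ‖x2 - p‖ ≤ δ / 1000000 →
      ‖x2 - x1‖ / 2 < ‖(g x2 - g x1) - (x2 - x1)‖ →
      1 / 128 ≤ |nd p (‖x2 - x1‖⁻¹ • (x2 - x1))|) {t : ℝ} (ht : t ≤ δ / 1000000)
    (hbad : ∃ (g g' : X → X) (p : X), Kl g g' p ∧ ∃ x1 x2 : X, ‖x1‖ = 1 ∧ ‖x2‖ = 1 ∧
      ‖x1 - p‖ ≤ t ∧ ‖x2 - p‖ ≤ t ∧ ‖x2 - x1‖ / 2 < ‖(g x2 - g x1) - (x2 - x1)‖) :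
    ∃ (g g' : X → X) (p : X), Kl g g' p ∧ ∃ x1 x2 : X, ‖x1‖ = 1 ∧ ‖x2‖ = 1 ∧
      ‖x1 - p‖ ≤ t ∧ ‖x2 - p‖ ≤ t ∧ ‖x2 - x1‖ / 2 < ‖(g x2 - g x1) - (x2 - x1)‖ ∧
      1 / 128 ≤ nd p (‖x2 - x1‖⁻¹ • (x2 - x1)) := by
  obtain ⟨g, g', p, K, x1, x2, h1, h2, h3, h4, h5⟩ := hbad
  have a1 := hδ g g' p x1 x2 K h1 h2 (h3.trans ht) (h4.trans ht) h5
  have h5' : ‖x1 - x2‖ / 2 < ‖(g x1 - g x2) - (x1 - x2)‖ := by
    rw [norm_sub_rev x1 x2]
    have e : (g x1 - g x2) - (x1 - x2) = -((g x2 - g x1) - (x2 - x1)) := by abel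
    rw [e, norm_neg]; exact h5
  have a2 := hδ g g' p x2 x1 K h2 h1 (h4.trans ht) (h3.trans ht) h5'
  have e : ‖x1 - x2‖⁻¹ • (x1 - x2) = -(‖x2 - x1‖⁻¹ • (x2 - x1)) := by
    rw [norm_sub_rev x1 x2, ← smul_neg, neg_sub]
  have a3 := nd_neg_add_nonneg p (‖x2 - x1‖⁻¹ • (x2 - x1))
  rcases le_total 0 (nd p (‖x2 - x1‖⁻¹ • (x2 - x1))) with h6 | h6
  · rw [abs_of_nonneg h6] at a1
    exact ⟨g, g', p, K, x1, x2, h1, h2, h3, h4, h5, a1⟩
  · have h7 : 0 ≤ nd p (-(‖x2 - x1‖⁻¹ • (x2 - x1))) := by linarith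
    rw [e, abs_of_nonneg h7] at a2
    refine ⟨g, g', p, K, x2, x1, h2, h1, h4, h3, h5', ?_⟩
    rw [e]; exact a2

/-- the contraction estimate -/
theorem ut_kl (X : Type u) [NormedAddCommGroup X] [NormedSpace ℝ X] [CompleteSpace X] :
    ∃ t0 : ℝ, 0 < t0 ∧ ∀ (g g' : X → X) (p : X), Kl g g' p → ∀ x1 x2 : X, ‖x1‖ = 1 → ‖x2‖ = 1 →
      ‖x1 - p‖ ≤ t0 → ‖x2 - p‖ ≤ t0 → ‖(g x2 - g x1) - (x2 - x1)‖ ≤ ‖x2 - x1‖ / 2 := by
  obtain ⟨δ, hδ0, hδ5, H⟩ := ut_core.{u}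
  by_contra hcon
  push Not at hcon
  have hbad : ∀ n : ℕ, ∃ (g g' : X → X) (p : X), Kl g g' p ∧ ∃ x1 x2 : X, ‖x1‖ = 1 ∧ ‖x2‖ = 1 ∧
      ‖x1 - p‖ ≤ δ / 1000000 / (n + 1) ∧ ‖x2 - p‖ ≤ δ / 1000000 / (n + 1) ∧
      ‖x2 - x1‖ / 2 < ‖(g x2 - g x1) - (x2 - x1)‖ ∧
      1 / 128 ≤ nd p (‖x2 - x1‖⁻¹ • (x2 - x1)) := by
    intro n
    have hn : δ / 1000000 / ((n : ℝ) + 1) ≤ δ / 1000000 :=
      div_le_self (by positivity) (by linarith [n.cast_nonneg (α := ℝ)])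
    refine bad_pair (δ := δ) (fun g g' p x1 x2 K h1 h2 h3 h4 h5 =>
      (H X g g' p x1 x2 K h1 h2 h3 h4 h5 δ hδ0 le_rfl).1) hn ?_
    obtain ⟨g, g', p, K, x1, x2, h1, h2, h3, h4, h5⟩ :=
      hcon (δ / 1000000 / ((n : ℝ) + 1)) (by positivity)
    exact ⟨g, g', p, K, x1, x2, h1, h2, h3, h4, h5⟩
  choose g g' p K x1 x2 hx1 hx2 hp1 hp2 hbig hnd using hbad
  have hle : ∀ n : ℕ, δ / 1000000 / ((n : ℝ) + 1) ≤ δ / 1000000 := fun n =>
    div_le_self (by positivity) (by linarith [n.cast_nonneg (α := ℝ)])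
  set w : ℕ → X := fun n => ‖x2 n - x1 n‖⁻¹ • (x2 n - x1 n) with hwdef
  have hdpos : ∀ n, 0 < ‖x2 n - x1 n‖ := by
    intro n
    rcases eq_or_lt_of_le (norm_nonneg (x2 n - x1 n)) with h | h
    · exfalso
      have h0 : x2 n = x1 n := by rw [← sub_eq_zero, ← norm_eq_zero]; exact h.symm
      have h1 := hbig n
      rw [h0] at h1
      simp at h1
    · exact h
  have hw : ∀ n, ‖w n‖ = 1 := by
    intro n
    rw [hwdef]
    simp only
    rw [norm_smul, norm_inv, norm_norm, inv_mul_cancel₀ (hdpos n).ne']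
  have hp : ∀ n, ‖p n‖ = 1 := fun n => (K n).hp
  have hiso : ∀ n, SIso (g n) (g' n) := fun n => (K n).iso
  have isoU := siso_gU hiso
  have hpU : ‖uq p‖ = 1 := norm_uq_unit hp
  have hwU : ‖uq w‖ = 1 := norm_uq_unit hw
  have fixU : gU g (uq p) = uq p := by
    rw [gU_uq hiso hp]
    congr 1
    funext n
    exact (K n).fix
  -- one-sided estimates
  have up : ∀ (n : ℕ) (s : ℝ), 0 < s → 1 + s / 128 ≤ ‖p n + s • w n‖ := by
    intro n s hs
    have h1 := nd_le (p n) (w n) hs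
    rw [hp, le_div_iff₀ hs] at h1
    have h2 := hnd n
    change 1 / 128 ≤ nd (p n) (w n) at h2
    nlinarith
  have dn : ∀ (n : ℕ) (s : ℝ), 0 < s → 1 - δ / 1000000 / ((n : ℝ) + 1) ≤ ‖p n - s • w n‖ := by
    intro n s hs
    have h1 := slope_ge (x1 n) (w n) (hdpos n) hs
    have e : x1 n + ‖x2 n - x1 n‖ • w n = x2 n := by
      rw [hwdef]
      simp only
      rw [smul_smul, mul_inv_cancel₀ (hdpos n).ne', one_smul]
      abel
    rw [e, hx1, hx2, sub_self, zero_mul] at h1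
    have h2 : 1 ≤ ‖x1 n - s • w n‖ := by
      by_contra h3
      push Not at h3
      have : 0 < (1 - ‖x1 n - s • w n‖) * ‖x2 n - x1 n‖ := mul_pos (by linarith) (hdpos n)
      linarith
    have h3 : ‖x1 n - s • w n‖ ≤ ‖p n - s • w n‖ + ‖x1 n - p n‖ := by
      have : x1 n - s • w n = (p n - s • w n) + (x1 n - p n) := by abel
      rw [this]; exact norm_add_le _ _
    linarith [hp1 n]
  have hbp := Bd.unit hp
  have hbw := Bd.unit hw
  have upU : ∀ s : ℝ, 0 < s → 1 + s / 128 ≤ ‖uq p + s • uq w‖ := by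
    intro s hs
    have h1 := norm_uq (hbp.add (hbw.smul s))
    rw [uq_add hbp (hbw.smul s), uq_smul s hbw] at h1
    exact ge_of_tendsto' h1 fun n => up n s hs
  have hto0 : Tendsto (fun n : ℕ => 1 - δ / 1000000 / ((n : ℝ) + 1)) (UU : Filter ℕ)
      (𝓝 (1 - 0)) := by
    refine Tendsto.mono_left ?_ UU_le_atTop
    refine tendsto_const_nhds.sub ?_
    have := (tendsto_const_div_atTop_nhds_zero_nat (δ / 1000000)).comp (tendsto_add_atTop_nat 1)
    refine this.congr fun n => ?_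
    simp
  rw [sub_zero] at hto0
  have dnU : ∀ s : ℝ, 0 < s → 1 ≤ ‖uq p + s • (-uq w)‖ := by
    intro s hs
    have h1 := norm_uq (hbp.sub (hbw.smul s))
    rw [uq_sub hbp (hbw.smul s), uq_smul s hbw] at h1
    rw [smul_neg, ← sub_eq_add_neg]
    exact le_of_tendsto_of_tendsto' hto0 h1 fun n => dn n s hs
  have hns : ¬ Smo (uq p) := by
    intro hS
    have h0 := hS (uq w)
    have t1 := nd_tendsto (uq p) (uq w)
    have t2 := nd_tendsto (uq p) (-uq w)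
    have b1 : 1 / 128 ≤ nd (uq p) (uq w) := by
      refine ge_of_tendsto t1 ?_
      filter_upwards [self_mem_nhdsWithin] with s hs
      have hs : 0 < s := hs
      rw [hpU, le_div_iff₀ hs]
      have := upU s hs
      linarith
    have b2 : 0 ≤ nd (uq p) (-uq w) := by
      refine ge_of_tendsto t2 ?_
      filter_upwards [self_mem_nhdsWithin] with s hs
      have hs : 0 < s := hs
      rw [hpU]
      have := dnU s hs
      exact div_nonneg (by linarith) hs.le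
    linarith
  obtain ⟨G, hG, hGp⟩ := ns_main isoU hpU hns
  rw [fixU] at hGp
  have hsec := second_small isoU hpU fixU G hG hGp (uq w) (ε := 1 / 2000000) (by norm_num)
  have hsmall : ∀ᶠ s : ℝ in 𝓝[>] (0 : ℝ), s < δ := by
    have : ∀ᶠ s : ℝ in 𝓝 (0 : ℝ), s < δ := eventually_lt_nhds hδ0
    exact this.filter_mono nhdsWithin_le_nhds
  obtain ⟨s, ⟨hs1, hs2⟩, hs0⟩ := ((hsec.and hsmall).and self_mem_nhdsWithin).exists
  have hs0 : 0 < s := hs0
  have hs3 : s < 1 := by linarith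
  -- transfer
  have hw' : ∀ n, ‖-w n‖ = 1 := fun n => by rw [norm_neg]; exact hw n
  have ewneg : uq (fun n => -w n) = -uq w := by
    have := uq_smul (-1) hbw
    simpa using this
  have e1 : cur (uq p) (uq w) s = uq (fun n => cur (p n) (w n) s) := cur_uq hp hw hs0 hs3
  have e2 : cur (uq p) (-uq w) s = uq (fun n => cur (p n) (-w n) s) := by
    rw [← ewneg]; exact cur_uq hp hw' hs0 hs3
  have n1 : ∀ n, ‖cur (p n) (w n) s‖ = 1 := fun n =>
    cur_norm' (hp n) (hw n) (by rw [abs_of_pos hs0]; exact hs3)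
  have n2 : ∀ n, ‖cur (p n) (-w n) s‖ = 1 := fun n =>
    cur_norm' (hp n) (hw' n) (by rw [abs_of_pos hs0]; exact hs3)
  have m1 : ∀ n, ‖g n (cur (p n) (w n) s)‖ = 1 := fun n => (hiso n).mapf _ (n1 n)
  have m2 : ∀ n, ‖g n (cur (p n) (-w n) s)‖ = 1 := fun n => (hiso n).mapf _ (n2 n)
  rw [e1, e2, gU_uq hiso n1, gU_uq hiso n2, ← uq_add (Bd.unit m1) (Bd.unit m2),
    ← uq_add (Bd.unit n1) (Bd.unit n2),
    ← uq_sub ((Bd.unit m1).add (Bd.unit m2)) ((Bd.unit n1).add (Bd.unit n2))] at hs1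
  have hlim := norm_uq (((Bd.unit m1).add (Bd.unit m2)).sub ((Bd.unit n1).add (Bd.unit n2)))
  have hev1 := hlim.eventually_lt_const hs1
  have hev2 := hto0.eventually_const_lt (show 1 - s / 2048 < 1 by linarith)
  obtain ⟨n, hn1, hn2⟩ := (hev1.and hev2).exists
  have hcore := (H X (g n) (g' n) (p n) (x1 n) (x2 n) (K n) (hx1 n) (hx2 n)
    ((hp1 n).trans (hle n)) ((hp2 n).trans (hle n)) (hbig n) s hs0 hs2.le).2 (hnd n)
    (hn2.le.trans (dn n s hs0))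
  change s / 1000000 < ‖(g n (cur (p n) (w n) s) + g n (cur (p n) (-w n) s))
    - (cur (p n) (w n) s + cur (p n) (-w n) s)‖ at hcore
  linarith

end

end Vale.Agent.P084G
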