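import Vale.Agent.Lib.P084G.A.DBasic

/-!
# P084G, uniqueness theorem: comparison of increments of the norm

`inc_bound` : if `z` is good at scale `δ` in the direction `v`, then
`‖z + a + τ v‖ - ‖z + a‖ = τ ψ v + O(η τ)` for all small `a` and all `0 < τ ≤ δ`, `ψ` norming `z`.
-/

open Filter Topology

namespace Vale.Agent.P084G

variable {X : Type*} [NormedAddCommGroup X] [NormedSpace ℝ X]

/-- slopes of the norm along a line are monotone -/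
theorem slope_le (z v : X) {τ t : ℝ} (hτ : 0 < τ) (hτt : τ ≤ t) :
    (‖z + τ • v‖ - ‖z‖) * t ≤ (‖z + t • v‖ - ‖z‖) * τ := by
  have ht : 0 < t := lt_of_lt_of_le hτ hτt
  have e : t • (z + τ • v) = (t - τ) • z + τ • (z + t • v) := by module
  have h1 : t * ‖z + τ • v‖ ≤ (t - τ) * ‖z‖ + τ * ‖z + t • v‖ := by
    calc t * ‖z + τ • v‖ = ‖t • (z + τ • v)‖ := by
          rw [norm_smul, Real.norm_of_nonneg ht.le]
      _ = ‖(t - τ) • z + τ • (z + t • v)‖ := by rw [e]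
      _ ≤ ‖(t - τ) • z‖ + ‖τ • (z + t • v)‖ := norm_add_le _ _
      _ = (t - τ) * ‖z‖ + τ * ‖z + t • v‖ := by
          rw [norm_smul, norm_smul, Real.norm_of_nonneg (sub_nonneg.2 hτt),
            Real.norm_of_nonneg hτ.le]
  nlinarith

/-- backward slopes are below forward slopes -/
theorem slope_ge (z v : X) {τ t : ℝ} (hτ : 0 < τ) (ht : 0 < t) :
    (‖z‖ - ‖z - t • v‖) * τ ≤ (‖z + τ • v‖ - ‖z‖) * t := by
  have e : (t + τ) • z = τ • (z - t • v) + t • (z + τ • v) := by module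
  have h1 : (t + τ) * ‖z‖ ≤ τ * ‖z - t • v‖ + t * ‖z + τ • v‖ := by
    calc (t + τ) * ‖z‖ = ‖(t + τ) • z‖ := by
          rw [norm_smul, Real.norm_of_nonneg (by linarith)]
      _ = ‖τ • (z - t • v) + t • (z + τ • v)‖ := by rw [e]
      _ ≤ ‖τ • (z - t • v)‖ + ‖t • (z + τ • v)‖ := norm_add_le _ _
      _ = _ := by
          rw [norm_smul, norm_smul, Real.norm_of_nonneg hτ.le, Real.norm_of_nonneg ht.le]
  nlinarith

theorem inc_bound {ψ : X →L[ℝ] ℝ} {z : X} (h : Nrm ψ z) (v a : X) {τ δ η : ℝ} (hτ : 0 < τ)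
    (hτδ : τ ≤ δ) (hη : 0 ≤ η) (hD : Dq δ z v ≤ η) (ha : ‖a‖ ≤ η * δ) :
    |‖z + a + τ • v‖ - ‖z + a‖ - τ * ψ v| ≤ 3 * η * τ := by
  have hδ : 0 < δ := lt_of_lt_of_le hτ hτδ
  have up := h.upper v hδ le_rfl
  have up2 : ‖z + δ • v‖ - ‖z‖ ≤ δ * ψ v + δ * η := by
    refine up.trans ?_
    gcongr
  -- the other side
  have dn : ‖z - δ • v‖ - ‖z‖ ≤ - (δ * ψ v) + δ * η := by
    have h1 : Dq δ z v = (‖z + δ • v‖ + ‖z - δ • v‖ - 2 * ‖z‖) / δ := rfl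
    rw [h1, div_le_iff₀ hδ] at hD
    have h2 := h.lower (δ • v)
    rw [map_smul, smul_eq_mul] at h2
    linarith
  have a1 : ‖z + a + δ • v‖ ≤ ‖z + δ • v‖ + ‖a‖ := by
    have : z + a + δ • v = (z + δ • v) + a := by abel
    rw [this]; exact norm_add_le _ _
  have a2 : ‖z‖ - ‖a‖ ≤ ‖z + a‖ := by
    have : z = (z + a) - a := by abel
    have h3 := norm_sub_le (z + a) a
    rw [← this] at h3
    linarith
  have a3 : ‖z + a - δ • v‖ ≤ ‖z - δ • v‖ + ‖a‖ := by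
    have : z + a - δ • v = (z - δ • v) + a := by abel
    rw [this]; exact norm_add_le _ _
  have s1 := slope_le (z + a) v hτ hτδ
  have s2 := slope_ge (z + a) v hτ hδ
  have b1 : ‖z + a + δ • v‖ - ‖z + a‖ ≤ δ * (ψ v + 3 * η) := by nlinarith
  have b2 : δ * (ψ v - 3 * η) ≤ ‖z + a‖ - ‖z + a - δ • v‖ := by nlinarith
  rw [abs_le]
  constructor
  · have h1 : (δ * (ψ v - 3 * η)) * τ ≤ (‖z + a + τ • v‖ - ‖z + a‖) * δ :=
      (mul_le_mul_of_nonneg_right b2 hτ.le).trans s2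
    have h2 : δ * ((ψ v - 3 * η) * τ) ≤ δ * (‖z + a + τ • v‖ - ‖z + a‖) := by linarith
    have h3 := le_of_mul_le_mul_left h2 hδ
    linarith
  · have h1 : (‖z + a + τ • v‖ - ‖z + a‖) * δ ≤ (δ * (ψ v + 3 * η)) * τ :=
      s1.trans (mul_le_mul_of_nonneg_right b1 hτ.le)
    have h2 : δ * (‖z + a + τ • v‖ - ‖z + a‖) ≤ δ * ((ψ v + 3 * η) * τ) := by linarith
    have h3 := le_of_mul_le_mul_left h2 hδ
    linarith

/-- the case `a = 0` -/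
theorem inc_bound0 {ψ : X →L[ℝ] ℝ} {z : X} (h : Nrm ψ z) (v : X) {τ δ η : ℝ} (hτ : 0 < τ)
    (hτδ : τ ≤ δ) (hη : 0 ≤ η) (hD : Dq δ z v ≤ η) :
    |‖z + τ • v‖ - ‖z‖ - τ * ψ v| ≤ 3 * η * τ := by
  have hδ : 0 < δ := lt_of_lt_of_le hτ hτδ
  have := inc_bound h v 0 hτ hτδ hη hD (by rw [norm_zero]; positivity)
  simpa using this

variable {Y : Type*} [NormedAddCommGroup Y] [NormedSpace ℝ Y]

/-- comparison on both sides: increments of the same size with equal effect on the norm -/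
theorem two_sided {ψ : X →L[ℝ] ℝ} {ψ' : Y →L[ℝ] ℝ} {z a h : X} {z' a' k : Y} (hψ : Nrm ψ z)
    (hψ' : Nrm ψ' z') {τ δ η : ℝ} (hτ : 0 < τ) (hτδ : τ ≤ δ) (hη : 0 ≤ η)
    (hD : Dq δ z (τ⁻¹ • h) ≤ η) (hD' : Dq δ z' (τ⁻¹ • k) ≤ η)
    (ha : ‖a‖ ≤ η * δ) (ha' : ‖a'‖ ≤ η * δ) (e1 : ‖z + a‖ = ‖z' + a'‖)
    (e2 : ‖z + a + h‖ = ‖z' + a' + k‖) : |ψ' k - ψ h| ≤ 6 * η * τ := by
  have h1 := inc_bound hψ (τ⁻¹ • h) a hτ hτδ hη hD ha
  have h2 := inc_bound hψ' (τ⁻¹ • k) a' hτ hτδ hη hD' ha'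
  rw [smul_smul, mul_inv_cancel₀ hτ.ne', one_smul, map_smul, smul_eq_mul, ← mul_assoc,
    mul_inv_cancel₀ hτ.ne', one_mul] at h1 h2
  rw [← e1, ← e2] at h2
  rw [abs_le] at h1 h2 ⊢
  constructor <;> linarith [h1.1, h1.2, h2.1, h2.2]

end Vale.Agent.P084G
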