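import Vale.Agent.Lib.P084G.Ultra
import Vale.Agent.Lib.P084G.UTCore

/-!
# P084G: sphere isometries on ultrapowers, in the `SIso` formalism
-/

open Filter Topology P084G

namespace Vale.Agent.P084G

section

variable {X : Type*} [NormedAddCommGroup X] [NormedSpace ℝ X]

theorem Bd.unit {x : ℕ → X} (hx : ∀ n, ‖x n‖ = 1) : P084G.Bd x := ⟨1, fun n => (hx n).le⟩

theorem norm_uq_unit {x : ℕ → X} (hx : ∀ n, ‖x n‖ = 1) : ‖uq x‖ = 1 :=
  tendsto_nhds_unique (norm_uq (Bd.unit hx)) (tendsto_const_nhds.congr fun n => (hx n).symm)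

theorem exists_unit_rep' (ξ : XU X) (hξ : ‖ξ‖ = 1) : ∃ x : ℕ → X, (∀ n, ‖x n‖ = 1) ∧ uq x = ξ := by
  obtain ⟨x, hx⟩ := exists_unit_rep ξ hξ
  exact ⟨fun n => (x n : X), fun n => by simp, hx⟩

open Classical in
/-- unit representative of an element of the ultrapower -/
noncomputable def urp (ξ : XU X) : ℕ → X :=
  if h : ‖ξ‖ = 1 then (exists_unit_rep' ξ h).choose else 0

theorem urp_norm {ξ : XU X} (h : ‖ξ‖ = 1) (n : ℕ) : ‖urp ξ n‖ = 1 := by
  unfold urp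
  rw [dif_pos h]
  exact (exists_unit_rep' ξ h).choose_spec.1 n

theorem uq_urp {ξ : XU X} (h : ‖ξ‖ = 1) : uq (urp ξ) = ξ := by
  unfold urp
  rw [dif_pos h]
  exact (exists_unit_rep' ξ h).choose_spec.2

variable {Y : Type*} [NormedAddCommGroup Y] [NormedSpace ℝ Y]

/-- the map induced by a sequence of maps -/
noncomputable def gU (f : ℕ → X → Y) (ξ : XU X) : XU Y := uq (fun n => f n (urp ξ n))

theorem gU_dist {f : ℕ → X → Y} {g : ℕ → Y → X} (h : ∀ n, SIso (f n) (g n)) {x y : ℕ → X}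
    (hx : ∀ n, ‖x n‖ = 1) (hy : ∀ n, ‖y n‖ = 1) :
    ‖uq (fun n => f n (x n)) - uq (fun n => f n (y n))‖ = ‖uq x - uq y‖ := by
  have hfx : ∀ n, ‖f n (x n)‖ = 1 := fun n => (h n).mapf _ (hx n)
  have hfy : ∀ n, ‖f n (y n)‖ = 1 := fun n => (h n).mapf _ (hy n)
  rw [← uq_sub (Bd.unit hfx) (Bd.unit hfy), ← uq_sub (Bd.unit hx) (Bd.unit hy)]
  refine tendsto_nhds_unique (norm_uq ((Bd.unit hfx).sub (Bd.unit hfy))) ?_
  refine (norm_uq ((Bd.unit hx).sub (Bd.unit hy))).congr fun n => ?_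
  rw [(h n).dist _ _ (hx n) (hy n)]

theorem gU_uq {f : ℕ → X → Y} {g : ℕ → Y → X} (h : ∀ n, SIso (f n) (g n)) {x : ℕ → X}
    (hx : ∀ n, ‖x n‖ = 1) : gU f (uq x) = uq (fun n => f n (x n)) := by
  have h1 := norm_uq_unit hx
  have h2 := gU_dist h (x := urp (uq x)) (y := x) (urp_norm h1) hx
  rw [uq_urp h1, sub_self, norm_zero, norm_eq_zero, sub_eq_zero] at h2
  exact h2

theorem siso_gU {f : ℕ → X → Y} {g : ℕ → Y → X} (h : ∀ n, SIso (f n) (g n)) :
    SIso (gU f) (gU g) where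
  mapf := fun ξ hξ => norm_uq_unit fun n => (h n).mapf _ (urp_norm hξ n)
  mapg := fun ξ hξ => norm_uq_unit fun n => (h n).mapg _ (urp_norm hξ n)
  gf := by
    intro ξ hξ
    have h1 : ∀ n, ‖f n (urp ξ n)‖ = 1 := fun n => (h n).mapf _ (urp_norm hξ n)
    change gU g (uq (fun n => f n (urp ξ n))) = ξ
    rw [gU_uq (fun n => (h n).symm) h1]
    have : (fun n => g n (f n (urp ξ n))) = urp ξ := funext fun n => (h n).gf _ (urp_norm hξ n)
    rw [this, uq_urp hξ]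
  fg := by
    intro ξ hξ
    have h1 : ∀ n, ‖g n (urp ξ n)‖ = 1 := fun n => (h n).mapg _ (urp_norm hξ n)
    change gU f (uq (fun n => g n (urp ξ n))) = ξ
    rw [gU_uq h h1]
    have : (fun n => f n (g n (urp ξ n))) = urp ξ := funext fun n => (h n).fg _ (urp_norm hξ n)
    rw [this, uq_urp hξ]
  dist := by
    intro ξ η hξ hη
    have := gU_dist h (urp_norm hξ) (urp_norm hη)
    rw [uq_urp hξ, uq_urp hη] at this
    exact this

/-- the normalised curves of the ultrapower are the classes of the normalised curves -/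
theorem cur_uq {p w : ℕ → X} (hp : ∀ n, ‖p n‖ = 1) (hw : ∀ n, ‖w n‖ = 1) {s : ℝ} (hs0 : 0 < s)
    (hs1 : s < 1) : cur (uq p) (uq w) s = uq (fun n => cur (p n) (w n) s) := by
  have hbp := Bd.unit hp
  have hbw := Bd.unit hw
  have hc : ∀ n, ‖cur (p n) (w n) s‖ = 1 := fun n =>
    cur_norm' (hp n) (hw n) (by rw [abs_of_pos hs0]; exact hs1)
  have hba := hbp.add (hbw.smul s)
  have e1 : uq (fun n => p n + s • w n) = uq p + s • uq w := by
    rw [uq_add hbp (hbw.smul s), uq_smul s hbw]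
  have hlim := norm_uq hba
  rw [e1] at hlim
  set r := ‖uq p + s • uq w‖ with hr
  have hlow : ∀ n, 1 - s ≤ ‖p n + s • w n‖ := by
    intro n
    have h2 : ‖p n‖ ≤ ‖p n + s • w n‖ + ‖s • w n‖ := by
      have : p n = (p n + s • w n) - s • w n := by abel
      calc ‖p n‖ = ‖(p n + s • w n) - s • w n‖ := by rw [← this]
        _ ≤ _ := norm_sub_le _ _
    rw [norm_smul, hw, hp, Real.norm_of_nonneg hs0.le] at h2
    linarith
  have hr0 : 0 < r := by
    have := ge_of_tendsto' hlim hlow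
    linarith
  unfold cur
  rw [← hr, ← e1, ← uq_smul r⁻¹ hba]
  have hb1 : P084G.Bd (fun n => ‖p n + s • w n‖⁻¹ • (p n + s • w n)) := Bd.unit hc
  rw [uq_eq_iff (hba.smul r⁻¹) hb1]
  have h3 : Tendsto (fun n => |r⁻¹ * ‖p n + s • w n‖ - 1|) (UU : Filter ℕ) (𝓝 |r⁻¹ * r - 1|) :=
    ((hlim.const_mul r⁻¹).sub_const 1).abs
  rw [inv_mul_cancel₀ hr0.ne', sub_self, abs_zero] at h3
  refine h3.congr fun n => ?_
  have hn0 : 0 < ‖p n + s • w n‖ := by linarith [hlow n]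
  have e2 : r⁻¹ • (p n + s • w n) - ‖p n + s • w n‖⁻¹ • (p n + s • w n)
      = (r⁻¹ - ‖p n + s • w n‖⁻¹) • (p n + s • w n) := by rw [sub_smul]
  rw [e2, norm_smul, Real.norm_eq_abs]
  nth_rewrite 3 [← abs_of_pos hn0]
  rw [← abs_mul, sub_mul, inv_mul_cancel₀ hn0.ne']

/-- the normalised curve in a general direction -/
theorem cur_tendsto' {p : X} (hp : ‖p‖ = 1) (v : X) :
    Tendsto (fun t : ℝ => t⁻¹ • (cur p v t - p)) (𝓝[>] 0) (𝓝 (v - nd p v • p)) := by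
  have h1 := nd_tendsto p v
  have h2 : Tendsto (fun t : ℝ => ‖p + t • v‖) (𝓝[>] 0) (𝓝 1) := by
    have : Tendsto (fun t : ℝ => ‖p + t • v‖) (𝓝 0) (𝓝 ‖p + (0 : ℝ) • v‖) := by
      apply Continuous.tendsto; fun_prop
    rw [zero_smul, add_zero, hp] at this
    exact this.mono_left nhdsWithin_le_nhds
  have h3 : Tendsto (fun t : ℝ => ‖p + t • v‖⁻¹ • (v - ((‖p + t • v‖ - ‖p‖) / t) • p)) (𝓝[>] 0)
      (𝓝 ((1 : ℝ)⁻¹ • (v - nd p v • p))) :=
    (h2.inv₀ one_ne_zero).smul (tendsto_const_nhds.sub (h1.smul_const p))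
  rw [inv_one, one_smul] at h3
  refine h3.congr' ?_
  have hev : ∀ᶠ t : ℝ in 𝓝[>] (0 : ℝ), 0 < ‖p + t • v‖ := h2.eventually_const_lt one_pos
  filter_upwards [hev, self_mem_nhdsWithin] with t ht ht0
  have ht0 : 0 < t := ht0
  unfold cur
  set r := ‖p + t • v‖ with hr
  rw [hp]
  have e : r⁻¹ • (p + t • v) - p = r⁻¹ • (t • v - (r - 1) • p) := by
    rw [smul_sub, smul_add, smul_smul r⁻¹ (r - 1) p, mul_sub, inv_mul_cancel₀ ht.ne', sub_smul,
      one_smul, mul_one]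
    abel
  rw [e, smul_comm t⁻¹ r⁻¹, smul_sub t⁻¹, smul_smul t⁻¹, smul_smul t⁻¹,
    inv_mul_cancel₀ ht0.ne', one_smul, div_eq_inv_mul]

end

end Vale.Agent.P084G
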